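import Vale.Agent.Lib.P064.ls.Labelled

/-!
# The copy-count inequality for hosts of bounded degree (helper49's Theorem B, report 2170)

Formalized by helper3 on top of the extension calculus of the P064 team (`ls/`).

* `sunflower_bound_att`: the sunflower step with the factor `n ^ |ψ (att F S T)|`
  (the proof of `sunflower_bound` with its last lines changed); no factor when no edge of the
  pattern joins `S` to `T \ S`.
-/

namespace Vale.Agent.Lib.P034.H3D

open Finset SimpleGraph Vale.Agent.KK Vale.Agent.KK.LS Vale.Agent.Lib.P064.LS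

variable {W : Type*} [Fintype W] [DecidableEq W]

theorem sunflower_bound_att {n : ℕ} (H : SimpleGraph (Fin n)) (F : SimpleGraph W)
    {q : ℝ} (hq0 : 0 ≤ q) (h : SubgraphsExpected n H q) (S T : Finset W) (hST : S ⊆ T)
    (ψ : W → Fin n) (M : Finset (W → Fin n)) (hM : M ⊆ Ext F H S T ψ)
    (hdisj : ∀ φ ∈ M, ∀ φ' ∈ M, φ ≠ φ' → ∀ x ∈ T \ S, ∀ x' ∈ T \ S, φ x ≠ φ' x') :
    (M.card.factorial : ℝ) ≤
      (n : ℝ) ^ ((att F S T).image ψ).card * (wt n q F S T) ^ M.card := by
  classical
  by_cases hTS : T \ S = ∅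
  · have hTeq : T = S :=
      Finset.Subset.antisymm (Finset.sdiff_eq_empty_iff_subset.1 hTS) hST
    subst hTeq
    have hc : M.card ≤ 1 := (Finset.card_le_card hM).trans (Ext_self_card F H T ψ)
    have hatt : att F T T = ∅ := by
      unfold att
      rw [Finset.sdiff_self]
      simp
    rw [hatt, Finset.image_empty, Finset.card_empty, pow_zero, wt_self, one_pow, one_mul]
    have hfac : M.card.factorial = 1 := by
      interval_cases M.card <;> rfl
    rw [hfac]
    norm_num
  · obtain ⟨z0, hz0⟩ := Finset.nonempty_iff_ne_empty.2 hTS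
    have hZne : Nonempty {z // z ∈ T \ S} := ⟨⟨z0, hz0⟩⟩
    have hcardZ : Fintype.card {z // z ∈ T \ S} = (T \ S).card := Fintype.card_coe (T \ S)
    obtain ⟨en, hen⟩ : ∃ en : Fin M.card → W → Fin n,
        en = fun i => ((M.equivFin).symm i).1 := ⟨_, rfl⟩
    have hen_mem : ∀ i, en i ∈ M := fun i => by
      rw [hen]
      exact ((M.equivFin).symm i).2
    have hen_inj : ∀ i j, i ≠ j → en i ≠ en j := by
      intro i j hij heq
      apply hij
      rw [hen] at heq
      exact (M.equivFin).symm.injective (Subtype.ext heq)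
    have hen_surj : ∀ φ ∈ M, ∃ i, en i = φ := by
      intro φ hφ
      refine ⟨M.equivFin ⟨φ, hφ⟩, ?_⟩
      rw [hen]
      show ((M.equivFin).symm (M.equivFin ⟨φ, hφ⟩)).1 = φ
      rw [Equiv.symm_apply_apply]
    obtain ⟨D, hDdef⟩ : ∃ D : Finset (Sym2 (Fin n)),
        D = M.biUnion (fun φ => (extEdges F S T).image (Sym2.map φ)) := ⟨_, rfl⟩
    have hmemD : ∀ d, d ∈ D ↔ ∃ φ ∈ M, ∃ e ∈ extEdges F S T, Sym2.map φ e = d := by
      intro d
      rw [hDdef, mem_biUnion]
      constructor
      · rintro ⟨φ, hφ, hd⟩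
        obtain ⟨e, he, rfl⟩ := mem_image.1 hd
        exact ⟨φ, hφ, e, he, rfl⟩
      · rintro ⟨φ, hφ, e, he, rfl⟩
        exact ⟨φ, hφ, mem_image_of_mem _ he⟩
    have hD : ∀ d ∈ D, d ∈ H.edgeSet := by
      intro d hd
      obtain ⟨φ, hφ, e0, he0, rfl⟩ := (hmemD d).1 hd
      have h3 := ((mem_Ext F H S T ψ φ).1 (hM hφ)).2.2
      induction e0 using Sym2.ind with
      | h x y =>
        rw [mem_extEdges] at he0
        rw [Sym2.map_mk, SimpleGraph.mem_edgeSet]
        exact h3 x y he0.1 he0.2.1 he0.2.2.1 he0.2.2.2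
    have hUH : SimpleGraph.fromEdgeSet (D : Set (Sym2 (Fin n))) ≤ H := by
      intro a b hab
      rw [SimpleGraph.fromEdgeSet_adj] at hab
      exact (SimpleGraph.mem_edgeSet H).1 (hD _ (Finset.mem_coe.1 hab.1))
    have hUe : (SimpleGraph.fromEdgeSet (D : Set (Sym2 (Fin n)))).edgeSet =
        (D : Set (Sym2 (Fin n))) := Vale.Agent.Lib.P064.RG.h23_edgeSet_fromEdgeSet D hD
    have hcardD : D.card = M.card * (extEdges F S T).card := by
      rw [hDdef, Finset.card_biUnion]
      · rw [Finset.sum_const_nat (m := (extEdges F S T).card)]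
        intro φ hφ
        exact Finset.card_image_of_injOn (ls5_injOn (hM hφ))
      · intro φ hφ φ' hφ' hne
        exact ls5_disjoint hM hdisj hφ hφ' hne
    have hPinj : ∀ i, Function.Injective (fun z : {z // z ∈ T \ S} => en i z.1) := by
      intro i z z' hzz
      have h1 := ((mem_Ext F H S T ψ (en i)).1 (hM (hen_mem i))).2.1
      exact Subtype.ext (h1 (mem_coe.2 (mem_sdiff.1 z.2).1) (mem_coe.2 (mem_sdiff.1 z'.2).1) hzz)
    have hPdisj : ∀ i j, i ≠ j → ∀ z z' : {z // z ∈ T \ S}, en i z.1 ≠ en j z'.1 := by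
      intro i j hij z z'
      exact hdisj (en i) (hen_mem i) (en j) (hen_mem j) (hen_inj i j hij) z.1 z.2 z'.1 z'.2
    have hPR : ∀ i (z : {z // z ∈ T \ S}), en i z.1 ∉ (att F S T).image ψ := by
      intro i z hmem
      obtain ⟨y, hy, hyz⟩ := mem_image.1 hmem
      have hyS : y ∈ S := (ls5_mem_att.1 hy).1
      have h1 := (mem_Ext F H S T ψ (en i)).1 (hM (hen_mem i))
      have hy' : y ∉ T \ S := fun hh => (mem_sdiff.1 hh).2 hyS
      have e1 : en i y = ψ y := h1.1 y hy'
      have e3 : en i y = en i z.1 := by rw [e1, hyz]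
      have e4 : y = z.1 := h1.2.1 (mem_coe.2 (hST hyS)) (mem_coe.2 (mem_sdiff.1 z.2).1) e3
      exact (mem_sdiff.1 z.2).2 (e4 ▸ hyS)
    have hU : ∀ a b, (SimpleGraph.fromEdgeSet (D : Set (Sym2 (Fin n)))).Adj a b ↔ a ≠ b ∧
        ((∃ (i : Fin M.card) (z : {z // z ∈ T \ S}), a ∈ (att F S T).image ψ ∧ b = en i z.1 ∧
            ∃ y ∈ S, ψ y = a ∧ F.Adj y z.1) ∨
          (∃ (i : Fin M.card) (z : {z // z ∈ T \ S}), b ∈ (att F S T).image ψ ∧ a = en i z.1 ∧
            ∃ y ∈ S, ψ y = b ∧ F.Adj y z.1) ∨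
          (∃ (i : Fin M.card) (z z' : {z // z ∈ T \ S}), a = en i z.1 ∧ b = en i z'.1 ∧
            (F.Adj z.1 z'.1 ∨ F.Adj z'.1 z.1))) := by
      intro a b
      rw [SimpleGraph.fromEdgeSet_adj]
      constructor
      · rintro ⟨hab, hne⟩
        refine ⟨hne, ?_⟩
        obtain ⟨φ, hφ, e0, he0, heq⟩ := (hmemD _).1 (Finset.mem_coe.1 hab)
        obtain ⟨i, rfl⟩ := hen_surj φ hφ
        have h1 := (mem_Ext F H S T ψ (en i)).1 (hM hφ)
        induction e0 using Sym2.ind with
        | h x y =>
          rw [mem_extEdges] at he0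
          obtain ⟨hadj, hxT, hyT, hxy⟩ := he0
          rw [Sym2.map_mk, Sym2.eq_iff] at heq
          by_cases hxS : x ∈ S
          · have hyS : y ∉ S := by
              rcases hxy with h' | h'
              · exact absurd hxS h'
              · exact h'
            have hyTS : y ∈ T \ S := mem_sdiff.2 ⟨hyT, hyS⟩
            have ex : en i x = ψ x := h1.1 x (fun hh => (mem_sdiff.1 hh).2 hxS)
            have hxatt : x ∈ att F S T := ls5_mem_att.2 ⟨hxS, y, hyTS, hadj⟩
            have hR : ψ x ∈ (att F S T).image ψ := mem_image_of_mem ψ hxatt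
            rcases heq with ⟨h1', h2'⟩ | ⟨h1', h2'⟩
            · left
              refine ⟨i, ⟨y, hyTS⟩, ?_, h2'.symm, x, hxS, ?_, hadj⟩
              · rw [← h1', ex]
                exact hR
              · rw [← h1', ex]
            · right
              left
              refine ⟨i, ⟨y, hyTS⟩, ?_, h2'.symm, x, hxS, ?_, hadj⟩
              · rw [← h1', ex]
                exact hR
              · rw [← h1', ex]
          · have hxTS : x ∈ T \ S := mem_sdiff.2 ⟨hxT, hxS⟩
            by_cases hyS : y ∈ S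
            · have ey : en i y = ψ y := h1.1 y (fun hh => (mem_sdiff.1 hh).2 hyS)
              have hyatt : y ∈ att F S T := ls5_mem_att.2 ⟨hyS, x, hxTS, hadj.symm⟩
              have hR : ψ y ∈ (att F S T).image ψ := mem_image_of_mem ψ hyatt
              rcases heq with ⟨h1', h2'⟩ | ⟨h1', h2'⟩
              · right
                left
                refine ⟨i, ⟨x, hxTS⟩, ?_, h1'.symm, y, hyS, ?_, hadj.symm⟩
                · rw [← h2', ey]
                  exact hR
                · rw [← h2', ey]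
              · left
                refine ⟨i, ⟨x, hxTS⟩, ?_, h1'.symm, y, hyS, ?_, hadj.symm⟩
                · rw [← h2', ey]
                  exact hR
                · rw [← h2', ey]
            · have hyTS : y ∈ T \ S := mem_sdiff.2 ⟨hyT, hyS⟩
              right
              right
              rcases heq with ⟨h1', h2'⟩ | ⟨h1', h2'⟩
              · exact ⟨i, ⟨x, hxTS⟩, ⟨y, hyTS⟩, h1'.symm, h2'.symm, Or.inl hadj⟩
              · exact ⟨i, ⟨y, hyTS⟩, ⟨x, hxTS⟩, h2'.symm, h1'.symm, Or.inr hadj⟩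
      · rintro ⟨hne, hcase⟩
        refine ⟨?_, hne⟩
        rw [Finset.mem_coe, hmemD]
        rcases hcase with ⟨i, z, -, hb, y, hyS, hya, hadj⟩ | ⟨i, z, -, ha, y, hyS, hyb, hadj⟩ |
          ⟨i, z, z', ha, hb, hadj⟩
        · have h1 := (mem_Ext F H S T ψ (en i)).1 (hM (hen_mem i))
          have ey : en i y = ψ y := h1.1 y (fun hh => (mem_sdiff.1 hh).2 hyS)
          refine ⟨en i, hen_mem i, s(y, z.1), ?_, ?_⟩
          · rw [mem_extEdges]
            exact ⟨hadj, hST hyS, (mem_sdiff.1 z.2).1, Or.inr (mem_sdiff.1 z.2).2⟩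
          · rw [Sym2.map_mk, ey, hya, hb]
        · have h1 := (mem_Ext F H S T ψ (en i)).1 (hM (hen_mem i))
          have ey : en i y = ψ y := h1.1 y (fun hh => (mem_sdiff.1 hh).2 hyS)
          refine ⟨en i, hen_mem i, s(y, z.1), ?_, ?_⟩
          · rw [mem_extEdges]
            exact ⟨hadj, hST hyS, (mem_sdiff.1 z.2).1, Or.inr (mem_sdiff.1 z.2).2⟩
          · rw [Sym2.map_mk, ey, hyb, ha]
            exact Sym2.eq_swap
        · refine ⟨en i, hen_mem i, s(z.1, z'.1), ?_, ?_⟩
          · rw [mem_extEdges]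
            refine ⟨?_, (mem_sdiff.1 z.2).1, (mem_sdiff.1 z'.2).1, Or.inl (mem_sdiff.1 z.2).2⟩
            rcases hadj with h' | h'
            · exact h'
            · exact h'.symm
          · rw [Sym2.map_mk, ha, hb]
    have hcc := sunflower_copyCount_le ((att F S T).image ψ) M.card
      (fun i (z : {z // z ∈ T \ S}) => en i z.1) hPinj hPdisj hPR
      (fun r (z : {z // z ∈ T \ S}) => ∃ y ∈ S, ψ y = r ∧ F.Adj y z.1)
      (fun (z z' : {z // z ∈ T \ S}) => F.Adj z.1 z'.1)
      (SimpleGraph.fromEdgeSet (D : Set (Sym2 (Fin n)))) hU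
    have h1 := hyp_spanning h (SimpleGraph.fromEdgeSet (D : Set (Sym2 (Fin n)))) hUH
    have hcardU : (SimpleGraph.fromEdgeSet (D : Set (Sym2 (Fin n)))).edgeSet.ncard = D.card := by
      rw [hUe, Set.ncard_coe_finset]
    rw [hcardU, hcardD] at h1
    have hcc2 : (⊤ : SimpleGraph (Fin n)).copyCount
          (SimpleGraph.fromEdgeSet (D : Set (Sym2 (Fin n)))) ≤
        n ^ ((att F S T).image ψ).card * (n ^ (T \ S).card).choose M.card := by
      rw [hcardZ] at hcc
      exact hcc
    have hdesc : M.card.factorial * (n ^ (T \ S).card).choose M.card ≤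
        (n ^ (T \ S).card) ^ M.card := by
      rw [← Nat.descFactorial_eq_factorial_mul_choose]
      exact Nat.descFactorial_le_pow _ _
    have hqpow : 0 ≤ q ^ (M.card * (extEdges F S T).card) := pow_nonneg hq0 _
    have hfac : (0 : ℝ) ≤ (M.card.factorial : ℝ) := Nat.cast_nonneg _
    unfold wt
    calc (M.card.factorial : ℝ)
        ≤ (M.card.factorial : ℝ) * (((⊤ : SimpleGraph (Fin n)).copyCount
            (SimpleGraph.fromEdgeSet (D : Set (Sym2 (Fin n)))) : ℝ) *
              q ^ (M.card * (extEdges F S T).card)) := le_mul_of_one_le_right hfac h1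
      _ ≤ (M.card.factorial : ℝ) *
            (((n ^ ((att F S T).image ψ).card * (n ^ (T \ S).card).choose M.card : ℕ) : ℝ) *
              q ^ (M.card * (extEdges F S T).card)) := by
          apply mul_le_mul_of_nonneg_left _ hfac
          apply mul_le_mul_of_nonneg_right _ hqpow
          exact_mod_cast hcc2
      _ = (n : ℝ) ^ ((att F S T).image ψ).card *
            ((M.card.factorial * (n ^ (T \ S).card).choose M.card : ℕ) : ℝ) *
              q ^ (M.card * (extEdges F S T).card) := by
          push_cast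
          ring
      _ ≤ (n : ℝ) ^ ((att F S T).image ψ).card * (((n ^ (T \ S).card) ^ M.card : ℕ) : ℝ) *
              q ^ (M.card * (extEdges F S T).card) := by
          apply mul_le_mul_of_nonneg_right _ hqpow
          apply mul_le_mul_of_nonneg_left _ (by positivity)
          exact_mod_cast hdesc
      _ = (n : ℝ) ^ ((att F S T).image ψ).card *
            ((n : ℝ) ^ (T \ S).card * q ^ (extEdges F S T).card) ^ M.card := by
          push_cast
          ring

/-- One new vertex attached by an edge to an old one: at most `D` extensions. -/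
theorem ext_one_le {n : ℕ} (H : SimpleGraph (Fin n)) (D : ℕ)
    (hdeg : ∀ v, (H.neighborSet v).ncard ≤ D) (F : SimpleGraph W) (X : Finset W) (z y : W)
    (hy : y ∈ X) (hzX : z ∉ X) (hadj : F.Adj y z) (ψ : W → Fin n) :
    (Ext F H X (insert z X) ψ).card ≤ D := by
  classical
  have hmaps : ∀ φ ∈ (Ext F H X (insert z X) ψ : Set (W → Fin n)),
      φ z ∈ H.neighborSet (ψ y) := by
    intro φ hφ
    rw [mem_coe, mem_Ext] at hφ
    have h1 : φ y = ψ y := hφ.1 y (fun hh => (mem_sdiff.1 hh).2 hy)
    have h2 := hφ.2.2 y z hadj (mem_insert_of_mem hy) (mem_insert_self z X) (Or.inr hzX)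
    rw [h1] at h2
    exact h2
  have hinj : Set.InjOn (fun φ : W → Fin n => φ z)
      (Ext F H X (insert z X) ψ : Set (W → Fin n)) := by
    intro a ha b hb hab
    rw [mem_coe, mem_Ext] at ha hb
    funext w
    by_cases hw : w = z
    · subst hw
      exact hab
    · have hw' : w ∉ insert z X \ X := by
        intro hh
        rcases mem_insert.1 (mem_sdiff.1 hh).1 with h' | h'
        · exact hw h'
        · exact (mem_sdiff.1 hh).2 h'
      rw [ha.1 w hw', hb.1 w hw']
  have h3 := Set.ncard_le_ncard_of_injOn (fun φ : W → Fin n => φ z) hmaps hinj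
    (Set.toFinite _)
  rw [Set.ncard_coe_finset] at h3
  exact h3.trans (hdeg _)

/-- **Rooted count.** If every set `A` with `X ⊆ A ⊂ T` has an edge of the pattern from `A` to
`T \ A`, then there are at most `D ^ |T \ X|` extensions from `X` to `T` in a host all of whose
degrees are at most `D`. -/
theorem rooted_count {n : ℕ} (H : SimpleGraph (Fin n)) (D : ℕ)
    (hdeg : ∀ v, (H.neighborSet v).ncard ≤ D) (F : SimpleGraph W) :
    ∀ (k : ℕ) (X T : Finset W), X ⊆ T → (T \ X).card = k →
      (∀ A, X ⊆ A → A ⊂ T → ∃ z ∈ T \ A, ∃ y ∈ A, F.Adj y z) →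
      ∀ ψ : W → Fin n, ((Ext F H X T ψ).card : ℝ) ≤ (D : ℝ) ^ k := by
  classical
  intro k
  induction k with
  | zero =>
    intro X T hXT hk _ ψ
    have hTX : T = X :=
      Finset.Subset.antisymm (Finset.sdiff_eq_empty_iff_subset.1 (Finset.card_eq_zero.1 hk)) hXT
    subst hTX
    rw [pow_zero]
    exact_mod_cast Ext_self_card F H T ψ
  | succ k ih =>
    intro X T hXT hk hconn ψ
    have hss : X ⊂ T := by
      refine Finset.ssubset_iff_subset_ne.2 ⟨hXT, ?_⟩
      intro heq
      rw [heq, Finset.sdiff_self, Finset.card_empty] at hk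
      omega
    obtain ⟨z, hz, y, hy, hadj⟩ := hconn X (Finset.Subset.refl X) hss
    have hzT : z ∈ T := (mem_sdiff.1 hz).1
    have hzX : z ∉ X := (mem_sdiff.1 hz).2
    have hX'T : insert z X ⊆ T := Finset.insert_subset hzT hXT
    have hcard : (T \ insert z X).card = k := by
      have h1 : T \ insert z X = (T \ X).erase z := by
        ext w
        simp only [mem_sdiff, mem_insert, mem_erase]
        tauto
      rw [h1, Finset.card_erase_of_mem hz, hk]
      rfl
    have hconn' : ∀ A, insert z X ⊆ A → A ⊂ T → ∃ z' ∈ T \ A, ∃ y' ∈ A, F.Adj y' z' :=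
      fun A hA hAT => hconn A ((Finset.subset_insert z X).trans hA) hAT
    have hN : ∀ φ : W → Fin n, ((Ext F H (insert z X) T φ).card : ℝ) ≤ (D : ℝ) ^ k :=
      fun φ => ih (insert z X) T hX'T hcard hconn' φ
    have h1 := Ext_split_card F H (Finset.subset_insert z X) hX'T ψ ((D : ℝ) ^ k) hN
    have h2 : ((Ext F H X (insert z X) ψ).card : ℝ) ≤ D := by
      exact_mod_cast ext_one_le H D hdeg F X z y hy hzX hadj ψ
    calc ((Ext F H X T ψ).card : ℝ) ≤ ((Ext F H X (insert z X) ψ).card : ℝ) * (D : ℝ) ^ k := h1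
      _ ≤ (D : ℝ) * (D : ℝ) ^ k := by gcongr
      _ = (D : ℝ) ^ (k + 1) := by ring

/-- Under the same connectivity hypothesis there are at least `|T \ X|` extension edges. -/
theorem edges_ge (F : SimpleGraph W) :
    ∀ (k : ℕ) (X T : Finset W), X ⊆ T → (T \ X).card = k →
      (∀ A, X ⊆ A → A ⊂ T → ∃ z ∈ T \ A, ∃ y ∈ A, F.Adj y z) →
      k ≤ (extEdges F X T).card := by
  classical
  intro k
  induction k with
  | zero =>
    intro X T _ _ _
    exact Nat.zero_le _
  | succ k ih =>
    intro X T hXT hk hconn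
    have hss : X ⊂ T := by
      refine Finset.ssubset_iff_subset_ne.2 ⟨hXT, ?_⟩
      intro heq
      rw [heq, Finset.sdiff_self, Finset.card_empty] at hk
      omega
    obtain ⟨z, hz, y, hy, hadj⟩ := hconn X (Finset.Subset.refl X) hss
    have hzT : z ∈ T := (mem_sdiff.1 hz).1
    have hzX : z ∉ X := (mem_sdiff.1 hz).2
    have hX'T : insert z X ⊆ T := Finset.insert_subset hzT hXT
    have hcard : (T \ insert z X).card = k := by
      have h1 : T \ insert z X = (T \ X).erase z := by
        ext w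
        simp only [mem_sdiff, mem_insert, mem_erase]
        tauto
      rw [h1, Finset.card_erase_of_mem hz, hk]
      rfl
    have hconn' : ∀ A, insert z X ⊆ A → A ⊂ T → ∃ z' ∈ T \ A, ∃ y' ∈ A, F.Adj y' z' :=
      fun A hA hAT => hconn A ((Finset.subset_insert z X).trans hA) hAT
    have h1 := ih (insert z X) T hX'T hcard hconn'
    have h2 := extEdges_card_add F (Finset.subset_insert z X) hX'T
    have h3 : 1 ≤ (extEdges F X (insert z X)).card := by
      apply Finset.card_pos.2
      refine ⟨s(y, z), ?_⟩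
      rw [mem_extEdges]
      exact ⟨hadj, mem_insert_of_mem hy, mem_insert_self z X, Or.inr hzX⟩
    omega

/-- **Component step.** `T \ S` is joined to `S` by no edge of the pattern and is connected (in
the cut form). Then the number of extensions from `S` to `T` is at most
`|T \ S|^2 * (e * wt) * D^(|T \ S| - 1)`. -/
theorem comp_step {n : ℕ} (H : SimpleGraph (Fin n)) (D : ℕ)
    (hdeg : ∀ v, (H.neighborSet v).ncard ≤ D) (F : SimpleGraph W) {q : ℝ} (hq0 : 0 ≤ q)
    (h : SubgraphsExpected n H q) (S T : Finset W) (hST : S ⊆ T) (hne : (T \ S).Nonempty)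
    (hclosed : ∀ y ∈ S, ∀ z ∈ T \ S, ¬ F.Adj y z)
    (hconn : ∀ x ∈ T \ S, ∀ A, insert x S ⊆ A → A ⊂ T → ∃ z ∈ T \ A, ∃ y ∈ A, F.Adj y z)
    (ψ : W → Fin n) :
    ((Ext F H S T ψ).card : ℝ) ≤
      ((T \ S).card : ℝ) ^ 2 * (Real.exp 1 * wt n q F S T) * (D : ℝ) ^ ((T \ S).card - 1) := by
  classical
  have hatt : att F S T = ∅ := by
    apply Finset.eq_empty_of_forall_notMem
    intro y hy
    obtain ⟨hyS, z, hz, hadj⟩ := ls5_mem_att.1 hy
    exact hclosed y hyS z hz hadj
  -- a largest family of extensions with pairwise disjoint new parts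
  obtain ⟨𝓜, h𝓜⟩ : ∃ 𝓜 : Finset (Finset (W → Fin n)), 𝓜 = (Ext F H S T ψ).powerset.filter
      (fun M => ∀ φ ∈ M, ∀ φ' ∈ M, φ ≠ φ' → ∀ x ∈ T \ S, ∀ x' ∈ T \ S, φ x ≠ φ' x') :=
    ⟨_, rfl⟩
  have hmem𝓜 : ∀ M, M ∈ 𝓜 ↔ M ⊆ Ext F H S T ψ ∧
      ∀ φ ∈ M, ∀ φ' ∈ M, φ ≠ φ' → ∀ x ∈ T \ S, ∀ x' ∈ T \ S, φ x ≠ φ' x' := by
    intro M
    rw [h𝓜, mem_filter, mem_powerset]
  have hne𝓜 : 𝓜.Nonempty := by
    refine ⟨∅, (hmem𝓜 ∅).2 ⟨Finset.empty_subset _, ?_⟩⟩
    intro φ hφ
    exact absurd hφ (Finset.notMem_empty φ)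
  obtain ⟨M, hM𝓜, hMmax⟩ := Finset.exists_max_image 𝓜 Finset.card hne𝓜
  obtain ⟨hMsub, hMdisj⟩ := (hmem𝓜 M).1 hM𝓜
  -- the size of `M`
  have hwt0 : 0 ≤ wt n q F S T := by
    unfold wt
    positivity
  have hsb := sunflower_bound_att H F hq0 h S T hST ψ M hMsub hMdisj
  rw [hatt, Finset.image_empty, Finset.card_empty, pow_zero, one_mul] at hsb
  have ht : (M.card : ℝ) ≤ Real.exp 1 * wt n q F S T := by
    rcases Nat.eq_zero_or_pos M.card with h0 | hpos
    · rw [h0, Nat.cast_zero]
      positivity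
    · have h2 : (M.card : ℝ) ^ M.card / (M.card.factorial : ℝ) ≤ Real.exp (M.card : ℝ) :=
        Real.pow_div_factorial_le_exp (x := (M.card : ℝ)) (by positivity) M.card
      have h3 : Real.exp (M.card : ℝ) = Real.exp 1 ^ M.card := by
        rw [← Real.exp_nat_mul, mul_one]
      have hfpos : (0 : ℝ) < (M.card.factorial : ℝ) := by
        exact_mod_cast Nat.factorial_pos _
      have h4 : (M.card : ℝ) ^ M.card ≤ (Real.exp 1 * wt n q F S T) ^ M.card := by
        rw [div_le_iff₀ hfpos, h3] at h2
        calc (M.card : ℝ) ^ M.card ≤ Real.exp 1 ^ M.card * (M.card.factorial : ℝ) := h2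
          _ ≤ Real.exp 1 ^ M.card * (wt n q F S T) ^ M.card := by gcongr
          _ = (Real.exp 1 * wt n q F S T) ^ M.card := by rw [mul_pow]
      exact (pow_le_pow_iff_left₀ (by positivity) (by positivity) (by omega)).1 h4
  -- every extension meets a member of `M`
  obtain ⟨x0, hx0⟩ := hne
  have hcover : ∀ φ ∈ Ext F H S T ψ, ∃ φ' ∈ M, ∃ x ∈ T \ S, ∃ x' ∈ T \ S, φ x = φ' x' := by
    intro φ hφ
    by_cases hφM : φ ∈ M
    · exact ⟨φ, hφM, x0, hx0, x0, hx0, rfl⟩
    · by_contra hcon
      push Not at hcon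
      have hins : insert φ M ∈ 𝓜 := by
        refine (hmem𝓜 _).2 ⟨Finset.insert_subset hφ hMsub, ?_⟩
        intro φ1 hφ1 φ2 hφ2 hne12 x hx x' hx'
        rcases mem_insert.1 hφ1 with h1 | h1 <;> rcases mem_insert.1 hφ2 with h2 | h2
        · exact absurd (h1.trans h2.symm) hne12
        · rw [h1]
          exact hcon φ2 h2 x hx x' hx'
        · rw [h2]
          exact fun heq => hcon φ1 h1 x' hx' x hx heq.symm
        · exact hMdisj φ1 h1 φ2 h2 hne12 x hx x' hx'
      have h5 := hMmax (insert φ M) hins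
      rw [Finset.card_insert_of_notMem hφM] at h5
      omega
  -- counting
  have hsub : Ext F H S T ψ ⊆ (M ×ˢ ((T \ S) ×ˢ (T \ S))).biUnion
      (fun t => Ext F H (insert t.2.1 S) T (Function.update ψ t.2.1 (t.1 t.2.2))) := by
    intro φ hφ
    obtain ⟨φ', hφ', x, hx, x', hx', heq⟩ := hcover φ hφ
    rw [mem_biUnion]
    refine ⟨(φ', x, x'), ?_, ?_⟩
    · rw [mem_product, mem_product]
      exact ⟨hφ', hx, hx'⟩
    · have h6 := Ext_update F H hφ hx
      rw [heq] at h6
      exact h6
  have hrc : ∀ t ∈ M ×ˢ ((T \ S) ×ˢ (T \ S)),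
      (Ext F H (insert t.2.1 S) T (Function.update ψ t.2.1 (t.1 t.2.2))).card ≤
        D ^ ((T \ S).card - 1) := by
    intro t ht'
    rw [mem_product, mem_product] at ht'
    have hx := ht'.2.1
    have hxT := (mem_sdiff.1 hx).1
    have hcard : (T \ insert t.2.1 S).card = (T \ S).card - 1 := by
      have h1 : T \ insert t.2.1 S = (T \ S).erase t.2.1 := by
        ext w
        simp only [mem_sdiff, mem_insert, mem_erase]
        tauto
      rw [h1, Finset.card_erase_of_mem hx]
    have h7 := rooted_count H D hdeg F ((T \ S).card - 1) (insert t.2.1 S) T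
      (Finset.insert_subset hxT hST) hcard (hconn t.2.1 hx)
      (Function.update ψ t.2.1 (t.1 t.2.2))
    exact_mod_cast h7
  have hcountN : (Ext F H S T ψ).card ≤
      (M ×ˢ ((T \ S) ×ˢ (T \ S))).card * D ^ ((T \ S).card - 1) :=
    (Finset.card_le_card hsub).trans (Finset.card_biUnion_le_card_mul _ _ _ hrc)
  rw [Finset.card_product, Finset.card_product] at hcountN
  have hcountR : ((Ext F H S T ψ).card : ℝ) ≤
      (M.card : ℝ) * (((T \ S).card : ℝ) * ((T \ S).card : ℝ)) *
        (D : ℝ) ^ ((T \ S).card - 1) := by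
    exact_mod_cast hcountN
  have hD0 : (0 : ℝ) ≤ (D : ℝ) ^ ((T \ S).card - 1) := by positivity
  calc ((Ext F H S T ψ).card : ℝ)
      ≤ (M.card : ℝ) * (((T \ S).card : ℝ) * ((T \ S).card : ℝ)) *
        (D : ℝ) ^ ((T \ S).card - 1) := hcountR
    _ ≤ (Real.exp 1 * wt n q F S T) * (((T \ S).card : ℝ) * ((T \ S).card : ℝ)) *
        (D : ℝ) ^ ((T \ S).card - 1) := by gcongr
    _ = ((T \ S).card : ℝ) ^ 2 * (Real.exp 1 * wt n q F S T) *
        (D : ℝ) ^ ((T \ S).card - 1) := by ring

theorem sq_le_four_pow (m : ℕ) (hm : 1 ≤ m) : m ^ 2 ≤ 4 ^ (m - 1) := by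
  induction m, hm using Nat.le_induction with
  | base => norm_num
  | succ m hm ih =>
    have e : m + 1 - 1 = (m - 1) + 1 := by omega
    have h4 : 4 ^ (m - 1 + 1) = 4 ^ (m - 1) * 4 := pow_succ 4 (m - 1)
    rw [e, h4]
    have h5 : m ≤ m ^ 2 := by nlinarith
    nlinarith

/-- **Chain over the components.** For a pattern without isolated vertices and a set `S` joined
to its complement by no edge of the pattern. -/
theorem closed_count {n : ℕ} (H : SimpleGraph (Fin n)) (D : ℕ) (hD : 1 ≤ D)
    (hdeg : ∀ v, (H.neighborSet v).ncard ≤ D) (F : SimpleGraph W)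
    (hiso : ∀ w, ∃ w', F.Adj w w') {q : ℝ} (hq0 : 0 ≤ q) (h : SubgraphsExpected n H q) :
    ∀ (k : ℕ) (S : Finset W), (univ \ S).card ≤ k → (∀ y ∈ S, ∀ z, z ∉ S → ¬ F.Adj y z) →
      ∀ ψ : W → Fin n, ((Ext F H S univ ψ).card : ℝ) ≤
        wt n q F S univ * (4 * Real.exp 1 * D) ^ (extEdges F S univ).card := by
  classical
  have hfull : ∀ ψ : W → Fin n, ((Ext F H univ univ ψ).card : ℝ) ≤
      wt n q F univ univ * (4 * Real.exp 1 * D) ^ (extEdges F univ univ).card := by
    intro ψ
    rw [wt_self, extEdges_self, Finset.card_empty, pow_zero, mul_one]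
    exact_mod_cast Ext_self_card F H univ ψ
  intro k
  induction k with
  | zero =>
    intro S hk _ ψ
    have hS : S = univ := by
      have h0 := Finset.card_eq_zero.1 (Nat.le_zero.1 hk)
      refine Finset.eq_univ_iff_forall.2 (fun w => ?_)
      by_contra hw
      have h1 : w ∈ univ \ S := mem_sdiff.2 ⟨mem_univ w, hw⟩
      rw [h0] at h1
      exact Finset.notMem_empty w h1
    rw [hS]
    exact hfull ψ
  | succ k ih =>
    intro S hk hclosed ψ
    by_cases hSu : S = univ
    · rw [hSu]
      exact hfull ψ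
    · obtain ⟨w, hw⟩ : ∃ w, w ∉ S := by
        by_contra hcon
        push Not at hcon
        exact hSu (Finset.eq_univ_iff_forall.2 hcon)
      obtain ⟨C, hC⟩ : ∃ C : Finset W, C = univ.filter (fun v => F.Reachable w v) := ⟨_, rfl⟩
      have hmemC : ∀ v, v ∈ C ↔ F.Reachable w v := by
        intro v
        rw [hC, mem_filter]
        exact ⟨fun hh => hh.2, fun hh => ⟨mem_univ v, hh⟩⟩
      obtain ⟨T, hT⟩ : ∃ T : Finset W, T = S ∪ C := ⟨_, rfl⟩
      have hwC : w ∈ C := (hmemC w).2 (Reachable.refl w)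
      have hCS : ∀ v ∈ C, v ∉ S := by
        intro v hv hvS
        obtain ⟨p⟩ := ((hmemC v).1 hv).symm
        obtain ⟨d, -, hd1, hd2⟩ := p.exists_boundary_dart (S : Set W) (mem_coe.2 hvS)
          (fun hh => hw (mem_coe.1 hh))
        exact hclosed d.fst (mem_coe.1 hd1) d.snd (fun hh => hd2 (mem_coe.2 hh)) d.adj
      have hTS : T \ S = C := by
        ext v
        rw [hT, mem_sdiff, mem_union]
        constructor
        · rintro ⟨h1 | h1, h2⟩
          · exact absurd h1 h2
          · exact h1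
        · intro hv
          exact ⟨Or.inr hv, hCS v hv⟩
      have hST : S ⊆ T := by
        rw [hT]
        exact Finset.subset_union_left
      have hCT : C ⊆ T := by
        rw [hT]
        exact Finset.subset_union_right
      have hTclosed : ∀ y ∈ T, ∀ z, z ∉ T → ¬ F.Adj y z := by
        intro y hy z hz hadj
        rw [hT] at hy
        rcases mem_union.1 hy with h1 | h1
        · exact hclosed y h1 z (fun hh => hz (hST hh)) hadj
        · exact hz (hCT ((hmemC z).2 (((hmemC y).1 h1).trans hadj.reachable)))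
      have hclosedST : ∀ y ∈ S, ∀ z ∈ T \ S, ¬ F.Adj y z :=
        fun y hy z hz => hclosed y hy z (mem_sdiff.1 hz).2
      have hconn : ∀ x ∈ T \ S, ∀ A, insert x S ⊆ A → A ⊂ T →
          ∃ z ∈ T \ A, ∃ y ∈ A, F.Adj y z := by
        intro x hx A hA hAT
        obtain ⟨z0, hz0T, hz0A⟩ := Finset.exists_of_ssubset hAT
        rw [hTS] at hx
        have hxA : x ∈ A := hA (mem_insert_self x S)
        have hSA : S ⊆ A := (Finset.subset_insert x S).trans hA
        have hz0C : z0 ∈ C := by
          rw [hT] at hz0T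
          rcases mem_union.1 hz0T with h1 | h1
          · exact absurd (hSA h1) hz0A
          · exact h1
        obtain ⟨p⟩ := (((hmemC x).1 hx).symm).trans ((hmemC z0).1 hz0C)
        obtain ⟨d, -, hd1, hd2⟩ := p.exists_boundary_dart (A : Set W) (mem_coe.2 hxA)
          (fun hh => hz0A (mem_coe.1 hh))
        have hd1' : d.fst ∈ A := mem_coe.1 hd1
        have hd2' : d.snd ∉ A := fun hh => hd2 (mem_coe.2 hh)
        have hfT : d.fst ∈ T := hAT.1 hd1'
        have hsT : d.snd ∈ T := by
          by_contra hcon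
          exact hTclosed d.fst hfT d.snd hcon d.adj
        exact ⟨d.snd, mem_sdiff.2 ⟨hsT, hd2'⟩, d.fst, hd1', d.adj⟩
      have hwTS : w ∈ T \ S := by
        rw [hTS]
        exact hwC
      have hwT : w ∈ T := (mem_sdiff.1 hwTS).1
      -- sizes
      have hm2 : 2 ≤ (T \ S).card := by
        obtain ⟨w', hw'⟩ := hiso w
        have hw'C : w' ∈ C := (hmemC w').2 hw'.reachable
        rw [hTS]
        have hsub : ({w, w'} : Finset W) ⊆ C := by
          intro v hv
          rcases mem_insert.1 hv with h1 | h1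
          · rw [h1]
            exact hwC
          · rw [mem_singleton.1 h1]
            exact hw'C
        have h2 := Finset.card_le_card hsub
        rw [Finset.card_pair hw'.ne] at h2
        exact h2
      have hedges : (T \ S).card - 1 ≤ (extEdges F S T).card := by
        have hcard : (T \ insert w S).card = (T \ S).card - 1 := by
          have h1 : T \ insert w S = (T \ S).erase w := by
            ext v
            simp only [mem_sdiff, mem_insert, mem_erase]
            tauto
          rw [h1, Finset.card_erase_of_mem hwTS]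
        have h1 := edges_ge F ((T \ S).card - 1) (insert w S) T
          (Finset.insert_subset hwT hST) hcard (hconn w hwTS)
        have h2 := extEdges_card_add F (Finset.subset_insert w S) (Finset.insert_subset hwT hST)
        omega
      have hstep := comp_step H D hdeg F hq0 h S T hST ⟨w, hwTS⟩ hclosedST hconn ψ
      have hcardT : (univ \ T).card ≤ k := by
        have h1 : (univ \ T) ⊆ (univ \ S).erase w := by
          intro v hv
          rw [mem_erase, mem_sdiff]
          have hvT := (mem_sdiff.1 hv).2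
          exact ⟨fun hvw => hvT (hvw ▸ hwT), mem_univ v, fun hvS => hvT (hST hvS)⟩
        have h2 := Finset.card_le_card h1
        rw [Finset.card_erase_of_mem (mem_sdiff.2 ⟨mem_univ w, hw⟩)] at h2
        omega
      have hN : ∀ φ : W → Fin n, ((Ext F H T univ φ).card : ℝ) ≤
          wt n q F T univ * (4 * Real.exp 1 * D) ^ (extEdges F T univ).card :=
        fun φ => ih T hcardT hTclosed φ
      have hsplit := Ext_split_card F H hST (Finset.subset_univ T) ψ _ hN
      -- arithmetic
      have hwtST : 0 ≤ wt n q F S T := by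
        unfold wt
        positivity
      have hwtTU : 0 ≤ wt n q F T univ := by
        unfold wt
        positivity
      have he1 : (1 : ℝ) ≤ Real.exp 1 := Real.one_le_exp (by norm_num)
      have hDR : (1 : ℝ) ≤ D := by exact_mod_cast hD
      have hB1 : (1 : ℝ) ≤ 4 * Real.exp 1 * D := by nlinarith
      have hB0 : (0 : ℝ) ≤ 4 * Real.exp 1 * D := by linarith
      have hsq : (((T \ S).card : ℝ)) ^ 2 ≤ (4 : ℝ) ^ ((T \ S).card - 1) := by
        exact_mod_cast sq_le_four_pow (T \ S).card (by omega)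
      have hexp : Real.exp 1 ≤ Real.exp 1 ^ ((T \ S).card - 1) := by
        calc Real.exp 1 = Real.exp 1 ^ 1 := (pow_one _).symm
          _ ≤ Real.exp 1 ^ ((T \ S).card - 1) := pow_le_pow_right₀ he1 (by omega)
      have hcomp : ((T \ S).card : ℝ) ^ 2 * (Real.exp 1 * wt n q F S T) *
          (D : ℝ) ^ ((T \ S).card - 1) ≤
            wt n q F S T * (4 * Real.exp 1 * D) ^ (extEdges F S T).card := by
        have hDp : (0 : ℝ) ≤ (D : ℝ) ^ ((T \ S).card - 1) := by positivity
        calc ((T \ S).card : ℝ) ^ 2 * (Real.exp 1 * wt n q F S T) *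
              (D : ℝ) ^ ((T \ S).card - 1)
            ≤ (4 : ℝ) ^ ((T \ S).card - 1) * (Real.exp 1 ^ ((T \ S).card - 1) *
                wt n q F S T) * (D : ℝ) ^ ((T \ S).card - 1) := by gcongr
          _ = wt n q F S T * (4 * Real.exp 1 * D) ^ ((T \ S).card - 1) := by
              rw [mul_pow, mul_pow]
              ring
          _ ≤ wt n q F S T * (4 * Real.exp 1 * D) ^ (extEdges F S T).card := by
              apply mul_le_mul_of_nonneg_left _ hwtST
              exact pow_le_pow_right₀ hB1 hedges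
      have hN0 : 0 ≤ wt n q F T univ * (4 * Real.exp 1 * D) ^ (extEdges F T univ).card := by
        positivity
      rw [wt_mul n q F hST (Finset.subset_univ T),
        extEdges_card_add F hST (Finset.subset_univ T), pow_add]
      calc ((Ext F H S univ ψ).card : ℝ)
          ≤ ((Ext F H S T ψ).card : ℝ) *
            (wt n q F T univ * (4 * Real.exp 1 * D) ^ (extEdges F T univ).card) := hsplit
        _ ≤ (wt n q F S T * (4 * Real.exp 1 * D) ^ (extEdges F S T).card) *
            (wt n q F T univ * (4 * Real.exp 1 * D) ^ (extEdges F T univ).card) :=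
            mul_le_mul_of_nonneg_right (hstep.trans hcomp) hN0
        _ = wt n q F S T * wt n q F T univ *
            ((4 * Real.exp 1 * D) ^ (extEdges F S T).card *
              (4 * Real.exp 1 * D) ^ (extEdges F T univ).card) := by ring

/-- The labelled inequality for hosts of maximum degree at most `D` and patterns without
isolated vertices. -/
theorem bd_main {n : ℕ} (H : SimpleGraph (Fin n)) (D : ℕ) (hD : 1 ≤ D)
    (hdeg : ∀ v, (H.neighborSet v).ncard ≤ D) {q : ℝ} (hq0 : 0 ≤ q)
    (h : SubgraphsExpected n H q) (W : Type) [Fintype W] (F : SimpleGraph W)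
    (hiso : ∀ w, ∃ w', F.Adj w w') :
    (H.labelledCopyCount F : ℝ) ≤
      (n.descFactorial (Fintype.card W) : ℝ) * (81 * D * q) ^ F.edgeSet.ncard := by
  classical
  have hDR : (1 : ℝ) ≤ D := by exact_mod_cast hD
  by_cases hw : Fintype.card W ≤ n
  swap
  · rw [labelled_eq_zero_of_card_lt H F (not_le.1 hw)]
    simp only [Nat.cast_zero]
    have h0 : 0 ≤ 81 * D * q := by positivity
    positivity
  have hcard2 := card_le_two_mul_edges F hiso
  have hconv := pow_le_exp_pow_mul_descFactorial n (Fintype.card W) hw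
  have hexp1 : 1 ≤ Real.exp 1 := Real.one_le_exp (by norm_num)
  have hD0 : (0 : ℝ) ≤ (n.descFactorial (Fintype.card W) : ℝ) := Nat.cast_nonneg _
  have hb0 : 0 ≤ 4 * Real.exp 1 * D * q := by positivity
  have hp : (H.labelledCopyCount F : ℝ) ≤
      (n : ℝ) ^ Fintype.card W * (4 * Real.exp 1 * D * q) ^ F.edgeSet.ncard := by
    rw [labelledCopyCount_eq_natCard]
    by_cases hne : Nonempty (Copy F H)
    swap
    · rw [not_nonempty_iff] at hne
      rw [Nat.card_of_isEmpty]
      simp only [Nat.cast_zero]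
      positivity
    obtain ⟨f0⟩ := hne
    have h1 := ls10_card_copy_le H F (⇑f0)
    have h4 := closed_count H D hD hdeg F hiso hq0 h (Fintype.card W) ∅
      (by rw [Finset.sdiff_empty, Finset.card_univ])
      (by
        intro y hy
        exact absurd hy (Finset.notMem_empty y)) (⇑f0)
    unfold wt at h4
    rw [Finset.sdiff_empty, Finset.card_univ, ls10_card_extEdges_univ] at h4
    calc (Nat.card (Copy F H) : ℝ) ≤ ((Ext F H ∅ univ (⇑f0)).card : ℝ) := by exact_mod_cast h1
      _ ≤ (n : ℝ) ^ Fintype.card W * q ^ F.edgeSet.ncard *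
            (4 * Real.exp 1 * D) ^ F.edgeSet.ncard := h4
      _ = (n : ℝ) ^ Fintype.card W * (4 * Real.exp 1 * D * q) ^ F.edgeSet.ncard := by
          rw [mul_assoc, ← mul_pow]
          ring_nf
  have hexp3 : Real.exp 1 ^ 2 * (4 * Real.exp 1) ≤ 81 := by
    have h1 : Real.exp 1 < 2.7182818286 := Real.exp_one_lt_d9
    have h0 : (0 : ℝ) < Real.exp 1 := Real.exp_pos 1
    have h3 : Real.exp 1 ^ 3 < 2.7182818286 ^ 3 := by gcongr
    norm_num at h3
    nlinarith
  set e := F.edgeSet.ncard with he
  calc (H.labelledCopyCount F : ℝ)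
      ≤ (n : ℝ) ^ Fintype.card W * (4 * Real.exp 1 * D * q) ^ e := hp
    _ ≤ (Real.exp 1 ^ (Fintype.card W) * (n.descFactorial (Fintype.card W) : ℝ)) *
          (4 * Real.exp 1 * D * q) ^ e := by
        gcongr
    _ ≤ (Real.exp 1 ^ (2 * e) * (n.descFactorial (Fintype.card W) : ℝ)) *
          (4 * Real.exp 1 * D * q) ^ e := by
        gcongr
    _ = (n.descFactorial (Fintype.card W) : ℝ) *
          (Real.exp 1 ^ 2 * (4 * Real.exp 1 * D * q)) ^ e := by
        rw [pow_mul, mul_pow]
        ring
    _ ≤ (n.descFactorial (Fintype.card W) : ℝ) * (81 * D * q) ^ e := by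
        have hDq : 0 ≤ (D : ℝ) * q := by positivity
        have hb : Real.exp 1 ^ 2 * (4 * Real.exp 1 * D * q) ≤ 81 * D * q := by
          nlinarith [mul_le_mul_of_nonneg_right hexp3 hDq]
        have hb0' : 0 ≤ Real.exp 1 ^ 2 * (4 * Real.exp 1 * D * q) := by positivity
        exact mul_le_mul_of_nonneg_left (pow_le_pow_left₀ hb0' hb e) hD0

/-- **The labelled copy-count inequality for hosts of bounded degree**, all patterns, density
capped at one (the shape of `Vale.Agent.KK.PF.pf_labelled_le_min`). -/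
theorem bd_labelled_le_min {n : ℕ} {H : SimpleGraph (Fin n)} {q : ℝ} (D : ℕ) (hD : 1 ≤ D)
    (hdeg : ∀ v, (H.neighborSet v).ncard ≤ D) (hq0 : 0 ≤ q) (h : SubgraphsExpected n H q)
    (W : Type) [Fintype W] (F : SimpleGraph W) :
    (H.labelledCopyCount F : ℝ) ≤
      (n.descFactorial (Fintype.card W) : ℝ) * (min 1 (81 * D * q)) ^ F.edgeSet.ncard := by
  classical
  by_cases hq : 81 * D * q ≤ 1
  · rw [min_eq_right hq]
    have key := labelled_of_support H F ((81 * D * q) ^ F.edgeSet.ncard) ?_
    · rw [Fintype.card_fin] at key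
      exact key
    rw [Fintype.card_fin, ← ncard_edgeSet_induce_support F]
    exact bd_main H D hD hdeg hq0 h F.support (F.induce F.support)
      (induce_support_no_isolated F)
  · rw [not_le] at hq
    rw [min_eq_left hq.le, one_pow, mul_one]
    have h1 := labelled_le_top H F
    rw [labelledCopyCount_top, Fintype.card_fin] at h1
    exact_mod_cast h1

end Vale.Agent.Lib.P034.H3D
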