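import Vale.Agent.Lib.P034.helper3.Bounded
import Vale.Agent.Lib.P034.helper3.BdCount

/-!
# P034: containment of bounded-degree graphs, final form

`q_f ≤ 162 * D * q` for the containment family of every graph all of whose degrees are at most
`D`.
-/

namespace Vale.Agent.Lib.P034.H3B

open Finset SimpleGraph
open Vale.Agent.KK Vale.Agent.KK.PP Vale.Agent.Lib.P064 Vale.Agent.Lib.P034.H3C

/-- The labelled copy-count inequality for hosts of bounded degree holds with constant `81`. -/
theorem bd_labelled : BdLabelled 81 := by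
  intro n H D q hD hdeg hq0 hyp F'
  have h := Vale.Agent.Lib.P034.H3D.bd_labelled_le_min D hD hdeg hq0 hyp (Fin n) F'
  rwa [Fintype.card_fin, Nat.descFactorial_self] at h

/-- **Rounding for containment of a bounded-degree graph**, explicit constant. -/
theorem bounded_small {n : ℕ} (H : SimpleGraph (Fin n)) (hne : H ≠ ⊥) (D : ℕ)
    (hdeg : ∀ v, (H.neighborSet v).ncard ≤ D)
    (F : Finset (Finset (Slot n))) (hF : ∀ W, W ∈ F ↔ H ⊑ graphOf W)
    (p : ℝ) (hp : 0 ≤ p) (hfs : IsFracSmall F p) : IsSmall F (p / (162 * D)) := by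
  have hD := one_le_of_ne_bot H hne D hdeg
  have h := bd_small 81 (by norm_num) bd_labelled H D hD hdeg F hF p hp hfs
  have e : p / (2 * 81 * (D : ℝ)) = p / (162 * D) := by norm_num
  rwa [e] at h

/-- **Thresholds for containment of a bounded-degree graph**, explicit constant. -/
theorem bounded_thresholds {n : ℕ} (H : SimpleGraph (Fin n)) (hne : H ≠ ⊥) (D : ℕ)
    (hdeg : ∀ v, (H.neighborSet v).ncard ≤ D)
    (F : Finset (Finset (Slot n))) (hF : ∀ W, W ∈ F ↔ H ⊑ graphOf W) :
    fracExpThreshold F ≤ 162 * D * expThreshold F := by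
  have hD := one_le_of_ne_bot H hne D hdeg
  have h := bd_thresholds 81 (by norm_num) bd_labelled H D hD hdeg F hF
  have e : 2 * 81 * (D : ℝ) = 162 * D := by norm_num
  rwa [e] at h

end Vale.Agent.Lib.P034.H3B
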