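import Vale.Agent.Lib.P034.helper3.Regime

/-!
# P034: fractional versus integral expectation thresholds for containment of bounded-degree graphs

Let `H` be a graph on `n` labelled vertices all of whose degrees are at most `D`. Given the
labelled copy-count inequality for such hosts with constant `L` (`BdLabelled L`, proved on the
P064 side), a fractional cover of cost at most `1/2` at `p` of the family of the graphs on `[n]`
containing a copy of `H` gives a cover of cost at most `1/2` at `p / (2 * L * D)`, and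
`q_f ≤ 2 * L * D * q`.
-/

namespace Vale.Agent.Lib.P034.H3B

open Finset SimpleGraph
open Vale.Agent.KK Vale.Agent.KK.PP Vale.Agent.Lib.P064 Vale.Agent.Lib.P034.H3C
open Vale.Agent.Lib.P034.H3R

/-- The labelled copy-count inequality for hosts of maximum degree at most `D`, constant `L`. -/
def BdLabelled (L : ℝ) : Prop :=
  ∀ (n : ℕ) (H : SimpleGraph (Fin n)) (D : ℕ) (q : ℝ), 1 ≤ D →
    (∀ v, (H.neighborSet v).ncard ≤ D) → 0 ≤ q → SubgraphsExpected n H q →
    ∀ F' : SimpleGraph (Fin n),
      (H.labelledCopyCount F' : ℝ) ≤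
        (n.factorial : ℝ) * (min 1 (L * D * q)) ^ F'.edgeSet.ncard

/-- **Rounding for containment of a bounded-degree graph.** -/
theorem bd_small (L : ℝ) (hL : 1 ≤ L) (hB : BdLabelled L) {n : ℕ} (H : SimpleGraph (Fin n))
    (D : ℕ) (hD : 1 ≤ D) (hdeg : ∀ v, (H.neighborSet v).ncard ≤ D)
    (F : Finset (Finset (Slot n))) (hF : ∀ W, W ∈ F ↔ H ⊑ graphOf W)
    (p : ℝ) (hp : 0 ≤ p) (hfs : IsFracSmall F p) : IsSmall F (p / (2 * L * D)) := by
  classical
  have hDR : (1 : ℝ) ≤ D := by exact_mod_cast hD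
  have hLD : 0 < L * D := by positivity
  set q : ℝ := p / (L * D) with hq
  have hq0 : 0 ≤ q := by positivity
  by_cases hyp : SubgraphsExpected n H q
  · exfalso
    have hlab := hB n H D q hD hdeg hq0 hyp
    have e : L * D * q = p := by
      rw [hq]
      field_simp
    rw [e] at hlab
    exact not_fracSmall_of_hlab H F hF p hp hlab hfs
  · unfold SubgraphsExpected at hyp
    push Not at hyp
    obtain ⟨H', hH'⟩ := hyp
    have hcc : (1 : ℝ) ≤ ((⊤ : SimpleGraph (Fin n)).copyCount H'.coe : ℝ) := by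
      exact_mod_cast one_le_copyCount_top_coe H'
    have he : H'.edgeSet.ncard ≠ 0 := by
      intro h0
      rw [h0, pow_zero, mul_one] at hH'
      linarith
    obtain ⟨G, hGcov, hGcost⟩ := sub_cover H H' (q / 2) (by positivity)
    refine ⟨G, ?_, ?_⟩
    · intro W hW
      exact hGcov W ((hF W).1 hW)
    · have e1 : p / (2 * L * D) = q / 2 := by
        rw [hq]
        field_simp
      unfold cost
      rw [e1]
      have h2 : (q / 2) ^ H'.edgeSet.ncard ≤ q ^ H'.edgeSet.ncard / 2 := by
        rw [div_pow]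
        have h3 : (2 : ℝ) ≤ 2 ^ H'.edgeSet.ncard := by
          calc (2 : ℝ) = 2 ^ 1 := (pow_one 2).symm
            _ ≤ 2 ^ H'.edgeSet.ncard :=
              pow_le_pow_right₀ (by norm_num) (Nat.one_le_iff_ne_zero.2 he)
        have h4 : 0 ≤ q ^ H'.edgeSet.ncard := pow_nonneg hq0 _
        rw [div_le_div_iff₀ (by positivity) (by norm_num)]
        nlinarith
      have h5 : ((⊤ : SimpleGraph (Fin n)).copyCount H'.coe : ℝ) * (q / 2) ^ H'.edgeSet.ncard ≤
          ((⊤ : SimpleGraph (Fin n)).copyCount H'.coe : ℝ) * (q ^ H'.edgeSet.ncard / 2) :=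
        mul_le_mul_of_nonneg_left h2 (by linarith)
      linarith

/-- **Thresholds for containment of a bounded-degree graph.** -/
theorem bd_thresholds (L : ℝ) (hL : 1 ≤ L) (hB : BdLabelled L) {n : ℕ}
    (H : SimpleGraph (Fin n)) (D : ℕ) (hD : 1 ≤ D) (hdeg : ∀ v, (H.neighborSet v).ncard ≤ D)
    (F : Finset (Finset (Slot n))) (hF : ∀ W, W ∈ F ↔ H ⊑ graphOf W) :
    fracExpThreshold F ≤ 2 * L * D * expThreshold F := by
  have hDR : (1 : ℝ) ≤ D := by exact_mod_cast hD
  have hK : (1 : ℝ) ≤ 2 * L * D := by nlinarith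
  have hbdd : BddAbove {p : ℝ | 0 ≤ p ∧ p ≤ 1 ∧ IsSmall F p} := ⟨1, fun p hp => hp.2.1⟩
  have h0 : 0 ≤ expThreshold F := Real.sSup_nonneg (fun p hp => hp.1)
  unfold fracExpThreshold
  apply Real.sSup_le
  · intro p hp
    have h1 := bd_small L hL hB H D hD hdeg F hF p hp.1 hp.2.2
    have hmem : p / (2 * L * D) ∈ {p : ℝ | 0 ≤ p ∧ p ≤ 1 ∧ IsSmall F p} := by
      refine ⟨by have := hp.1; positivity, ?_, h1⟩
      have := hp.2.1
      rw [div_le_one (by linarith)]
      linarith
    have h2 := le_csSup hbdd hmem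
    unfold expThreshold
    rw [div_le_iff₀ (by linarith)] at h2
    linarith
  · positivity

/-- A graph with an edge and all degrees at most `D` has `1 ≤ D`. -/
theorem one_le_of_ne_bot {n : ℕ} (H : SimpleGraph (Fin n)) (hne : H ≠ ⊥) (D : ℕ)
    (hdeg : ∀ v, (H.neighborSet v).ncard ≤ D) : 1 ≤ D := by
  by_contra hlt
  have hD0 : D = 0 := by omega
  apply hne
  ext u v
  simp only [bot_adj, iff_false]
  intro huv
  have h1 := hdeg u
  rw [hD0, Nat.le_zero, Set.ncard_eq_zero (Set.toFinite _)] at h1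
  have : v ∈ H.neighborSet u := huv
  rw [h1] at this
  exact this

end Vale.Agent.Lib.P034.H3B
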