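import Vale.Agent.Lib.P034.Defs
import Vale.Agent.KK.PF.Q1

/-!
# P034: fractional versus integral expectation thresholds for graph containment

For a graph `H` on `n` labelled vertices all of whose components have at most one cycle, the
increasing family of the edge sets of the graphs on `[n]` that contain a copy of `H` satisfies
`q_f ≤ 12000000000 * q`.
-/

namespace Vale.Agent.Lib.P034.H3C

open Finset SimpleGraph
open Vale.Agent.KK Vale.Agent.KK.PP Vale.Agent.Lib.P064

/-- Fractional version of the covering bound for the copies of `H`: averaging a fractional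
cover over all images of `H`. -/
theorem frac_cover_ge {n : ℕ} (H : SimpleGraph (Fin n)) (p₀ : ℝ)
    (hlab : ∀ F : SimpleGraph (Fin n),
      (H.labelledCopyCount F : ℝ) ≤ (n.factorial : ℝ) * p₀ ^ F.edgeSet.ncard)
    (g : Finset (Slot n) → ℝ) (hg0 : ∀ T, 0 ≤ g T)
    (hg : ∀ σ : Equiv.Perm (Fin n), 1 ≤ ∑ T ∈ (copyEdges H σ).powerset, g T) :
    1 ≤ ∑ T : Finset (Slot n), g T * p₀ ^ T.card := by
  classical
  have h1 : (n.factorial : ℝ) ≤
      ∑ σ : Equiv.Perm (Fin n), ∑ T ∈ (copyEdges H σ).powerset, g T := by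
    calc (n.factorial : ℝ) = ∑ _σ : Equiv.Perm (Fin n), (1 : ℝ) := by
          rw [Finset.sum_const, card_univ, Fintype.card_perm, Fintype.card_fin]
          simp
      _ ≤ _ := Finset.sum_le_sum (fun σ _ => hg σ)
  have h2 : ∑ σ : Equiv.Perm (Fin n), ∑ T ∈ (copyEdges H σ).powerset, g T =
      ∑ T : Finset (Slot n), g T *
        ((univ.filter (fun σ : Equiv.Perm (Fin n) => T ⊆ copyEdges H σ)).card : ℝ) := by
    have h : ∀ σ : Equiv.Perm (Fin n), ∑ T ∈ (copyEdges H σ).powerset, g T =
        ∑ T : Finset (Slot n), if T ⊆ copyEdges H σ then g T else 0 := by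
      intro σ
      rw [← Finset.sum_filter]
      apply Finset.sum_congr _ (fun _ _ => rfl)
      ext T
      simp
    simp_rw [h]
    rw [Finset.sum_comm]
    apply Finset.sum_congr rfl
    intro T _
    rw [← Finset.sum_filter, Finset.sum_const, nsmul_eq_mul, mul_comm]
  have h3 : ∀ T : Finset (Slot n), g T *
      ((univ.filter (fun σ : Equiv.Perm (Fin n) => T ⊆ copyEdges H σ)).card : ℝ) ≤
        (n.factorial : ℝ) * (g T * p₀ ^ T.card) := by
    intro T
    have h3 : ((univ.filter (fun σ : Equiv.Perm (Fin n) => T ⊆ copyEdges H σ)).card : ℝ) ≤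
        (H.labelledCopyCount (graphOf T) : ℝ) := by
      exact_mod_cast card_perm_le H T
    have h4 := hlab (graphOf T)
    rw [graphOf_edgeSet_ncard] at h4
    calc g T * ((univ.filter (fun σ : Equiv.Perm (Fin n) => T ⊆ copyEdges H σ)).card : ℝ)
        ≤ g T * ((n.factorial : ℝ) * p₀ ^ T.card) :=
          mul_le_mul_of_nonneg_left (h3.trans h4) (hg0 T)
      _ = (n.factorial : ℝ) * (g T * p₀ ^ T.card) := by ring
  have hpos : (0 : ℝ) < (n.factorial : ℝ) := by exact_mod_cast n.factorial_pos
  have h5 : (n.factorial : ℝ) * 1 ≤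
      (n.factorial : ℝ) * ∑ T : Finset (Slot n), g T * p₀ ^ T.card := by
    rw [Finset.mul_sum, mul_one]
    calc (n.factorial : ℝ) ≤ _ := h1
      _ = _ := h2
      _ ≤ _ := Finset.sum_le_sum (fun T _ => h3 T)
  exact le_of_mul_le_mul_left h5 hpos

/-- An isomorphism preserves the number of edges (no finiteness needed for the statement). -/
theorem ncard_edgeSet_iso {V W : Type*} {A : SimpleGraph V} {B : SimpleGraph W} (f : A ≃g B) :
    A.edgeSet.ncard = B.edgeSet.ncard := by
  rw [← Nat.card_coe_set_eq, ← Nat.card_coe_set_eq]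
  exact Nat.card_congr f.mapEdgeSet

/-- The edge slots of a subgraph of the complete graph. -/
noncomputable def slotsOf {n : ℕ} (S : (⊤ : SimpleGraph (Fin n)).Subgraph) : Finset (Slot n) :=
  open Classical in univ.filter (fun e : Slot n => (e : Sym2 (Fin n)) ∈ S.spanningCoe.edgeSet)

theorem card_slotsOf {n : ℕ} (S : (⊤ : SimpleGraph (Fin n)).Subgraph) :
    (slotsOf S).card = S.edgeSet.ncard := by
  classical
  unfold slotsOf
  rw [card_slotFilter, Subgraph.edgeSet_spanningCoe]

/-- The copies of a subgraph `H'` of `H` cover the graphs containing `H`, and they are cheap when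
the expected number of copies of `H'` is small. -/
theorem sub_cover {n : ℕ} (H : SimpleGraph (Fin n)) (H' : H.Subgraph) (x : ℝ) (hx : 0 ≤ x) :
    ∃ G : Finset (Finset (Slot n)),
      (∀ W : Finset (Slot n), H ⊑ graphOf W → ∃ T ∈ G, T ⊆ W) ∧
      ∑ T ∈ G, x ^ T.card ≤
        ((⊤ : SimpleGraph (Fin n)).copyCount H'.coe : ℝ) * x ^ H'.edgeSet.ncard := by
  classical
  set Sub : Finset (⊤ : SimpleGraph (Fin n)).Subgraph :=
    univ.filter (fun S => Nonempty (H'.coe ≃g S.coe)) with hSub
  refine ⟨Sub.image slotsOf, ?_, ?_⟩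
  · rintro W ⟨c⟩
    -- the image of `H'` under the copy `c`
    let emb : H'.verts ↪ Fin n := ⟨fun a => c a.1, fun a b h => Subtype.ext (c.injective h)⟩
    let ψ : Copy H'.coe (⊤ : SimpleGraph (Fin n)) := (copyTopEquiv H'.coe).symm emb
    have hψ : ∀ a, ψ a = c a.1 := fun a => rfl
    refine ⟨slotsOf ψ.toSubgraph, ?_, ?_⟩
    · rw [mem_image]
      refine ⟨ψ.toSubgraph, ?_, rfl⟩
      rw [hSub, mem_filter]
      exact ⟨mem_univ _, ⟨ψ.isoToSubgraph⟩⟩
    · intro e he
      unfold slotsOf at he
      rw [mem_filter, Subgraph.edgeSet_spanningCoe] at he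
      obtain ⟨-, he⟩ := he
      obtain ⟨e, hne⟩ := e
      induction e using Sym2.ind with
      | _ u v =>
        rw [Subgraph.mem_edgeSet, Subgraph.map_adj] at he
        obtain ⟨a, b, hab, hu, hv⟩ := he
        rw [Subgraph.top_adj] at hab
        have h1 : H.Adj a.1 b.1 := H'.adj_sub hab
        have h2 : (graphOf W).Adj (c a.1) (c b.1) := c.toHom.map_rel h1
        rw [graphOf_adj] at h2
        obtain ⟨e', he', hee⟩ := h2
        have h3 : e' = ⟨s(u, v), hne⟩ := by
          apply Subtype.ext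
          rw [hee]
          have hu' : c a.1 = u := hu
          have hv' : c b.1 = v := hv
          rw [hu', hv']
        rw [← h3]
        exact he'
  · have hcard : ∀ T ∈ Sub.image slotsOf, T.card = H'.edgeSet.ncard := by
      intro T hT
      rw [mem_image] at hT
      obtain ⟨S, hS, rfl⟩ := hT
      rw [hSub, mem_filter] at hS
      obtain ⟨-, ⟨f⟩⟩ := hS
      rw [card_slotsOf, ← ncard_edgeSet_coe S, ← ncard_edgeSet_iso f, ncard_edgeSet_coe]
    have h1 : ∑ T ∈ Sub.image slotsOf, x ^ T.card =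
        ((Sub.image slotsOf).card : ℝ) * x ^ H'.edgeSet.ncard := by
      rw [Finset.sum_congr rfl (fun T hT => by rw [hcard T hT]), Finset.sum_const, nsmul_eq_mul]
    have h2 : (Sub.image slotsOf).card ≤ (⊤ : SimpleGraph (Fin n)).copyCount H'.coe := by
      calc (Sub.image slotsOf).card ≤ Sub.card := card_image_le
        _ = (⊤ : SimpleGraph (Fin n)).copyCount H'.coe := by
            rw [copyCount_eq_natCard, Nat.card_eq_fintype_card, Fintype.card_subtype]
    rw [h1]
    have h3 : ((Sub.image slotsOf).card : ℝ) ≤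
        ((⊤ : SimpleGraph (Fin n)).copyCount H'.coe : ℝ) := by exact_mod_cast h2
    exact mul_le_mul_of_nonneg_right h3 (pow_nonneg hx _)

/-- **Rounding for graph containment.** If every vertex set of `H` spans at most as many edges
as it has vertices, then a fractional cover of cost at most `1/2` at `p` for the family of
graphs containing a copy of `H` yields a cover of cost at most `1/2` at `p / 12000000000`. -/
theorem contain_small {n : ℕ} (H : SimpleGraph (Fin n))
    (hH : ∀ S : Finset (Fin n), {e ∈ H.edgeSet | ∀ v ∈ e, v ∈ S}.ncard ≤ S.card)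
    (F : Finset (Finset (Slot n))) (hF : ∀ W, W ∈ F ↔ H ⊑ graphOf W)
    (p : ℝ) (hp : 0 ≤ p) (hfs : IsFracSmall F p) : IsSmall F (p / 12000000000) := by
  classical
  obtain ⟨par, hpar, hpar2⟩ := Vale.Agent.Lib.P064.PF.exists_out_orientation H hH
  obtain ⟨g, ⟨hg01, hgcov⟩, hcost⟩ := hfs
  set q : ℝ := p / 6000000000 with hq
  have hq0 : 0 ≤ q := by positivity
  by_cases hyp : SubgraphsExpected n H q
  · exfalso
    have hlab : ∀ F' : SimpleGraph (Fin n), (H.labelledCopyCount F' : ℝ) ≤
        (n.factorial : ℝ) * (min 1 (6000000000 * q)) ^ F'.edgeSet.ncard := by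
      intro F'
      have := Vale.Agent.KK.PF.pf_labelled_le_min par hpar hpar2 hq0 hyp (Fin n) F'
      rwa [Fintype.card_fin, Nat.descFactorial_self] at this
    have hp₀ : 0 ≤ min 1 (6000000000 * q) := le_min zero_le_one (by positivity)
    have hmem : ∀ σ : Equiv.Perm (Fin n), copyEdges H σ ∈ F := by
      intro σ
      rw [hF, ← hits_copyFamily_iff]
      refine ⟨copyEdges H σ, ?_, Finset.Subset.refl _⟩
      unfold copyFamily
      exact mem_image_of_mem _ (mem_univ σ)
    have h1 := frac_cover_ge H _ hlab g (fun T => (hg01 T).1) (fun σ => hgcov _ (hmem σ))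
    have h2 : ∑ T : Finset (Slot n), g T * (min 1 (6000000000 * q)) ^ T.card ≤ fracCost g p := by
      unfold fracCost
      apply Finset.sum_le_sum
      intro T _
      apply mul_le_mul_of_nonneg_left _ (hg01 T).1
      apply pow_le_pow_left₀ hp₀
      calc min 1 (6000000000 * q) ≤ 6000000000 * q := min_le_right _ _
        _ = p := by rw [hq]; ring
    linarith
  · unfold SubgraphsExpected at hyp
    push Not at hyp
    obtain ⟨H', hH'⟩ := hyp
    have hcc : (1 : ℝ) ≤ ((⊤ : SimpleGraph (Fin n)).copyCount H'.coe : ℝ) := by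
      exact_mod_cast one_le_copyCount_top_coe H'
    have he : H'.edgeSet.ncard ≠ 0 := by
      intro h0
      rw [h0, pow_zero, mul_one] at hH'
      linarith
    obtain ⟨G, hGcov, hGcost⟩ := sub_cover H H' (q / 2) (by positivity)
    refine ⟨G, ?_, ?_⟩
    · intro W hW
      exact hGcov W ((hF W).1 hW)
    · have e1 : p / 12000000000 = q / 2 := by rw [hq]; ring
      unfold cost
      rw [e1]
      have h2 : (q / 2) ^ H'.edgeSet.ncard ≤ q ^ H'.edgeSet.ncard / 2 := by
        rw [div_pow]
        have h3 : (2 : ℝ) ≤ 2 ^ H'.edgeSet.ncard := by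
          calc (2 : ℝ) = 2 ^ 1 := (pow_one 2).symm
            _ ≤ 2 ^ H'.edgeSet.ncard :=
              pow_le_pow_right₀ (by norm_num) (Nat.one_le_iff_ne_zero.2 he)
        have h4 : 0 ≤ q ^ H'.edgeSet.ncard := pow_nonneg hq0 _
        rw [div_le_div_iff₀ (by positivity) (by norm_num)]
        nlinarith
      have h5 : ((⊤ : SimpleGraph (Fin n)).copyCount H'.coe : ℝ) * (q / 2) ^ H'.edgeSet.ncard ≤
          ((⊤ : SimpleGraph (Fin n)).copyCount H'.coe : ℝ) * (q ^ H'.edgeSet.ncard / 2) :=
        mul_le_mul_of_nonneg_left h2 (by linarith)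
      linarith

/-- **Thresholds for graph containment.** -/
theorem contain_thresholds {n : ℕ} (H : SimpleGraph (Fin n))
    (hH : ∀ S : Finset (Fin n), {e ∈ H.edgeSet | ∀ v ∈ e, v ∈ S}.ncard ≤ S.card)
    (F : Finset (Finset (Slot n))) (hF : ∀ W, W ∈ F ↔ H ⊑ graphOf W) :
    fracExpThreshold F ≤ 12000000000 * expThreshold F := by
  have hbdd : BddAbove {p : ℝ | 0 ≤ p ∧ p ≤ 1 ∧ IsSmall F p} := ⟨1, fun p hp => hp.2.1⟩
  have h0 : 0 ≤ expThreshold F := Real.sSup_nonneg (fun p hp => hp.1)
  unfold fracExpThreshold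
  apply Real.sSup_le
  · intro p hp
    have h1 := contain_small H hH F hF p hp.1 hp.2.2
    have hmem : p / 12000000000 ∈ {p : ℝ | 0 ≤ p ∧ p ≤ 1 ∧ IsSmall F p} := by
      refine ⟨by have := hp.1; positivity, ?_, h1⟩
      have := hp.2.1
      linarith
    have h2 := le_csSup hbdd hmem
    unfold expThreshold
    linarith
  · positivity

/-- The family of graphs containing a copy of `H` is a nonempty increasing family, and it does
not contain the empty edge set when `H` has an edge. -/
theorem contain_family {n : ℕ} (H : SimpleGraph (Fin n)) (hne : H ≠ ⊥)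
    (F : Finset (Finset (Slot n))) (hF : ∀ W, W ∈ F ↔ H ⊑ graphOf W) :
    F.Nonempty ∧ ∅ ∉ F ∧ IsIncreasing F := by
  classical
  refine ⟨?_, ?_, ?_⟩
  · refine ⟨copyEdges H 1, ?_⟩
    rw [hF, ← hits_copyFamily_iff]
    refine ⟨copyEdges H 1, ?_, Finset.Subset.refl _⟩
    unfold copyFamily
    exact mem_image_of_mem _ (mem_univ _)
  · intro h
    rw [hF] at h
    obtain ⟨c⟩ := h
    apply hne
    ext u v
    simp only [bot_adj, iff_false]
    intro huv
    have h2 : (graphOf (∅ : Finset (Slot n))).Adj (c u) (c v) := c.toHom.map_rel huv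
    rw [graphOf_adj] at h2
    obtain ⟨e, he, -⟩ := h2
    simp at he
  · intro A hA B hAB
    rw [hF] at hA ⊢
    apply hA.mono_right
    intro u v huv
    rw [graphOf_adj] at huv ⊢
    obtain ⟨e, he, hee⟩ := huv
    exact ⟨e, hAB he, hee⟩

end Vale.Agent.Lib.P034.H3C
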