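import Vale.Agent.Lib.P034.helper3.Regime
import Vale.Agent.KK.LS.Graded

/-!
# P034: a constant-factor comparison of the thresholds in a dense regime

For the family of the graphs on `[n]` containing a copy of an arbitrary graph `H`, an integer
`k ≥ 1` and a real `M ≥ 1` with `log n ≤ M ^ k`: a fractional cover of cost at most `1/2` at `p`
gives a cover of cost at most `1/2` at `p / (480 M ^ 2)` as soon as
`3 log n ≤ n * (p / (480 M ^ 2)) ^ k`. Hence `q_f ≤ 480 M ^ 2 * max q t` for every `t ≥ 0` with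
`3 log n ≤ n * t ^ k`, and `q_f ≤ 1920 q` for every `H` having a vertex set `A` that spans at
least `2 k (|A| + 1)` edges, where `log n ≤ 2 ^ k` and `9 (log n) ^ 2 ≤ n`.

The copy-count inequality used here is `Vale.Agent.KK.LS.graded_hlab` (helper33); the counting
step of `admissible_dense` follows the proof of `Vale.Agent.KK.LS.dense_subgraph_threshold_le`.
-/

namespace Vale.Agent.Lib.P034.H3G

open Finset SimpleGraph
open Vale.Agent.KK Vale.Agent.KK.PP Vale.Agent.Lib.P064 Vale.Agent.Lib.P034.H3C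
open Vale.Agent.Lib.P034.H3R

/-- Rounding at `p`, given that every admissible density `q = p / (480 M ^ 2)` satisfies
`3 log n ≤ n * q ^ k`. -/
theorem graded_small_of {n : ℕ} (hn : 2 ≤ n) (H : SimpleGraph (Fin n))
    (F : Finset (Finset (Slot n))) (hF : ∀ W, W ∈ F ↔ H ⊑ graphOf W)
    (k : ℕ) (hk1 : 1 ≤ k) (M : ℝ) (hM : 1 ≤ M) (hk : Real.log n ≤ M ^ k)
    (p : ℝ) (hp : 0 ≤ p) (hp1 : p ≤ 1)
    (hdense : (∀ H' : H.Subgraph, (1 : ℝ) / 2 ≤
        ((⊤ : SimpleGraph (Fin n)).copyCount H'.coe : ℝ) *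
          (p / (480 * M ^ 2)) ^ H'.edgeSet.ncard) →
      3 * Real.log n ≤ n * (p / (480 * M ^ 2)) ^ k)
    (hfs : IsFracSmall F p) : IsSmall F (p / (480 * M ^ 2)) := by
  classical
  have hM2 : (1 : ℝ) ≤ M ^ 2 := one_le_pow₀ hM
  have hL0 : (0 : ℝ) < 480 * M ^ 2 := by nlinarith
  have hL1 : (1 : ℝ) ≤ 480 * M ^ 2 := by nlinarith
  set q : ℝ := p / (480 * M ^ 2) with hq
  have hq0 : 0 ≤ q := div_nonneg hp hL0.le
  have hqp : q ≤ p := by
    rw [hq]
    exact div_le_self hp hL1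
  by_cases hyp : ∀ H' : H.Subgraph, (1 : ℝ) / 2 ≤
      ((⊤ : SimpleGraph (Fin n)).copyCount H'.coe : ℝ) * q ^ H'.edgeSet.ncard
  · exfalso
    have hpk := hdense hyp
    have e : 240 * M ^ 2 * (2 * q) = p := by
      rw [hq]
      field_simp
      ring
    have hlab : ∀ F' : SimpleGraph (Fin n),
        (H.labelledCopyCount F' : ℝ) ≤ (n.factorial : ℝ) * (min 1 p) ^ F'.edgeSet.ncard := by
      intro F'
      have h := Vale.Agent.KK.LS.graded_hlab hn H k hk1 M hM hk q hq0 (hqp.trans hp1) hpk hyp F'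
      rw [e] at h
      exact h
    exact not_fracSmall_of_hlab H F hF p hp hlab hfs
  · push Not at hyp
    obtain ⟨H', hH'⟩ := hyp
    obtain ⟨G, hGcov, hGcost⟩ := sub_cover H H' q hq0
    refine ⟨G, fun W hW => hGcov W ((hF W).1 hW), ?_⟩
    unfold cost
    linarith

/-- **Rounding in the dense regime.** -/
theorem graded_small {n : ℕ} (hn : 2 ≤ n) (H : SimpleGraph (Fin n))
    (F : Finset (Finset (Slot n))) (hF : ∀ W, W ∈ F ↔ H ⊑ graphOf W)
    (k : ℕ) (hk1 : 1 ≤ k) (M : ℝ) (hM : 1 ≤ M) (hk : Real.log n ≤ M ^ k)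
    (p : ℝ) (hp : 0 ≤ p) (hp1 : p ≤ 1)
    (hpk : 3 * Real.log n ≤ n * (p / (480 * M ^ 2)) ^ k)
    (hfs : IsFracSmall F p) : IsSmall F (p / (480 * M ^ 2)) :=
  graded_small_of hn H F hF k hk1 M hM hk p hp hp1 (fun _ => hpk) hfs

/-- **Thresholds in the dense regime.** -/
theorem graded_thresholds {n : ℕ} (hn : 2 ≤ n) (H : SimpleGraph (Fin n))
    (F : Finset (Finset (Slot n))) (hF : ∀ W, W ∈ F ↔ H ⊑ graphOf W)
    (k : ℕ) (hk1 : 1 ≤ k) (M : ℝ) (hM : 1 ≤ M) (hk : Real.log n ≤ M ^ k)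
    (t : ℝ) (ht : 0 ≤ t) (htk : 3 * Real.log n ≤ n * t ^ k) :
    fracExpThreshold F ≤ 480 * M ^ 2 * max (expThreshold F) t := by
  have hM2 : (1 : ℝ) ≤ M ^ 2 := one_le_pow₀ hM
  have hL0 : (0 : ℝ) < 480 * M ^ 2 := by nlinarith
  have hL1 : (1 : ℝ) ≤ 480 * M ^ 2 := by nlinarith
  have hbdd : BddAbove {p : ℝ | 0 ≤ p ∧ p ≤ 1 ∧ IsSmall F p} := ⟨1, fun p hp => hp.2.1⟩
  have h0 : 0 ≤ expThreshold F := Real.sSup_nonneg (fun p hp => hp.1)
  have hn0 : (0 : ℝ) ≤ n := Nat.cast_nonneg n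
  have hmax0 : 0 ≤ max (expThreshold F) t := le_max_of_le_left h0
  have key : ∀ p ∈ {p : ℝ | 0 ≤ p ∧ p ≤ 1 ∧ IsFracSmall F p},
      p ≤ 480 * M ^ 2 * max (expThreshold F) t := by
    intro p hp
    obtain ⟨hp0, hp1, hfs⟩ := hp
    by_cases hc : t ≤ p / (480 * M ^ 2)
    · have h1 : t ^ k ≤ (p / (480 * M ^ 2)) ^ k := pow_le_pow_left₀ ht hc k
      have h2 : 3 * Real.log n ≤ n * (p / (480 * M ^ 2)) ^ k :=
        htk.trans (mul_le_mul_of_nonneg_left h1 hn0)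
      have h3 := graded_small hn H F hF k hk1 M hM hk p hp0 hp1 h2 hfs
      have hmem : p / (480 * M ^ 2) ∈ {p : ℝ | 0 ≤ p ∧ p ≤ 1 ∧ IsSmall F p} :=
        ⟨div_nonneg hp0 hL0.le, (div_le_self hp0 hL1).trans hp1, h3⟩
      have h4 : p / (480 * M ^ 2) ≤ expThreshold F := le_csSup hbdd hmem
      rw [div_le_iff₀ hL0] at h4
      have h5 : expThreshold F ≤ max (expThreshold F) t := le_max_left _ _
      nlinarith
    · rw [not_le, div_lt_iff₀ hL0] at hc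
      have h5 : t ≤ max (expThreshold F) t := le_max_right _ _
      nlinarith
  exact Real.sSup_le key (by positivity)

/-- If a vertex set `A` spans at least `2 k (|A| + 1)` edges of `H` and `9 (log n)^2 ≤ n`, then
every admissible density `p` satisfies `3 log n ≤ n * p ^ k`. -/
theorem admissible_dense {n : ℕ} (hn : 2 ≤ n) (H : SimpleGraph (Fin n)) (k : ℕ)
    (hnlog : 9 * Real.log n ^ 2 ≤ n)
    (A : Finset (Fin n)) (D : Finset (Sym2 (Fin n)))
    (hD : ∀ e ∈ D, e ∈ H.edgeSet ∧ ∀ v ∈ e, v ∈ A)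
    (hcard : 2 * k * (A.card + 1) ≤ D.card)
    (p : ℝ) (hp0 : 0 ≤ p) (hp1 : p ≤ 1)
    (hp : ∀ H' : H.Subgraph, (1 : ℝ) / 2 ≤
      ((⊤ : SimpleGraph (Fin n)).copyCount H'.coe : ℝ) * p ^ H'.edgeSet.ncard) :
    3 * Real.log n ≤ n * p ^ k := by
  classical
  have hl2 : (0.6931471803 : ℝ) < Real.log 2 := Real.log_two_gt_d9
  have hnR : (2 : ℝ) ≤ n := by exact_mod_cast hn
  have hnpos : (0 : ℝ) < n := by linarith
  have hlogn : Real.log 2 ≤ Real.log n := Real.log_le_log (by norm_num) hnR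
  have hlogpos : 0 < Real.log n := by linarith
  have hDH : ∀ e ∈ D, e ∈ H.edgeSet := fun e he => (hD e he).1
  have hUe : (SimpleGraph.fromEdgeSet (D : Set (Sym2 (Fin n)))).edgeSet =
      (D : Set (Sym2 (Fin n))) := Vale.Agent.Lib.P064.RG.h23_edgeSet_fromEdgeSet D hDH
  have hUH : SimpleGraph.fromEdgeSet (D : Set (Sym2 (Fin n))) ≤ H := by
    intro a b hab
    rw [SimpleGraph.fromEdgeSet_adj] at hab
    exact (SimpleGraph.mem_edgeSet H).1 (hDH _ (Finset.mem_coe.1 hab.1))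
  set U : SimpleGraph (Fin n) := SimpleGraph.fromEdgeSet (D : Set (Sym2 (Fin n))) with hU
  have h1 := hp (SimpleGraph.toSubgraph (G := H) U hUH)
  have eiso : U ≃g (SimpleGraph.toSubgraph (G := H) U hUH).coe :=
    { toFun := fun v => ⟨v, Set.mem_univ v⟩
      invFun := fun v => v.1
      left_inv := fun _ => rfl
      right_inv := fun _ => rfl
      map_rel_iff' := Iff.rfl }
  rw [← copyCount_congr _ eiso] at h1
  have h1' : (1 : ℝ) / 2 ≤ ((⊤ : SimpleGraph (Fin n)).copyCount U : ℝ) * p ^ U.edgeSet.ncard :=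
    h1
  have hcardU : U.edgeSet.ncard = D.card := by
    rw [hUe, Set.ncard_coe_finset]
  rw [hcardU] at h1'
  have hvA : Vale.Agent.KK.RG.vset D ⊆ A := by
    intro v hv
    unfold Vale.Agent.KK.RG.vset at hv
    simp only [Finset.mem_filter, Finset.mem_univ, true_and] at hv
    obtain ⟨e, he, hve⟩ := hv
    exact (hD e he).2 v hve
  have h2 : ((⊤ : SimpleGraph (Fin n)).copyCount U : ℝ) ≤ (n : ℝ) ^ A.card := by
    have h3 : (⊤ : SimpleGraph (Fin n)).copyCount U ≤ n ^ (Vale.Agent.KK.RG.vset D).card :=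
      Vale.Agent.Lib.P064.RG.h23_copyCount_le D U hUe
    have h4 : n ^ (Vale.Agent.KK.RG.vset D).card ≤ n ^ A.card :=
      Nat.pow_le_pow_right (by omega) (Finset.card_le_card hvA)
    exact_mod_cast h3.trans h4
  have h5 : (1 : ℝ) ≤ (n : ℝ) ^ (A.card + 1) * p ^ D.card := by
    have h6 : (1 : ℝ) / 2 ≤ (n : ℝ) ^ A.card * p ^ D.card :=
      h1'.trans (mul_le_mul_of_nonneg_right h2 (pow_nonneg hp0 _))
    have h7 : (0 : ℝ) ≤ (n : ℝ) ^ A.card * p ^ D.card := by positivity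
    rw [pow_succ]
    nlinarith
  have h8 : p ^ D.card ≤ (p ^ (2 * k)) ^ (A.card + 1) := by
    rw [← pow_mul]
    exact pow_le_pow_of_le_one hp0 hp1 hcard
  have h9 : (1 : ℝ) ≤ ((n : ℝ) * p ^ (2 * k)) ^ (A.card + 1) := by
    rw [mul_pow]
    exact h5.trans (mul_le_mul_of_nonneg_left h8 (by positivity))
  have h10 : (1 : ℝ) ≤ (n : ℝ) * p ^ (2 * k) :=
    one_le_of_one_le_pow (by positivity) (Nat.succ_ne_zero _) h9
  have h11 : (3 * Real.log n) ^ 2 ≤ ((n : ℝ) * p ^ k) ^ 2 := by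
    have h12 : ((n : ℝ) * p ^ k) ^ 2 = n * ((n : ℝ) * p ^ (2 * k)) := by
      rw [mul_comm 2 k, pow_mul]
      ring
    rw [h12]
    nlinarith
  have h13 : (0 : ℝ) ≤ (n : ℝ) * p ^ k := by positivity
  have h14 : (0 : ℝ) ≤ 3 * Real.log n := by linarith
  exact (pow_le_pow_iff_left₀ h14 h13 two_ne_zero).1 h11

/-- **Rounding for graphs with a dense subgraph**, with the constant `1920`. -/
theorem dense_small {n : ℕ} (hn : 2 ≤ n) (H : SimpleGraph (Fin n))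
    (F : Finset (Finset (Slot n))) (hF : ∀ W, W ∈ F ↔ H ⊑ graphOf W)
    (k : ℕ) (hk1 : 1 ≤ k) (hk : Real.log n ≤ 2 ^ k) (hnlog : 9 * Real.log n ^ 2 ≤ n)
    (A : Finset (Fin n)) (D : Finset (Sym2 (Fin n)))
    (hD : ∀ e ∈ D, e ∈ H.edgeSet ∧ ∀ v ∈ e, v ∈ A)
    (hcard : 2 * k * (A.card + 1) ≤ D.card)
    (p : ℝ) (hp : 0 ≤ p) (hp1 : p ≤ 1) (hfs : IsFracSmall F p) : IsSmall F (p / 1920) := by
  have e : (480 : ℝ) * 2 ^ 2 = 1920 := by norm_num
  have h := graded_small_of hn H F hF k hk1 2 (by norm_num) hk p hp hp1 ?_ hfs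
  · rw [e] at h
    exact h
  · intro hyp
    rw [e] at hyp ⊢
    have hq0 : (0 : ℝ) ≤ p / 1920 := by positivity
    have hq1 : p / 1920 ≤ 1 := (div_le_self hp (by norm_num)).trans hp1
    exact admissible_dense hn H k hnlog A D hD hcard (p / 1920) hq0 hq1 hyp

/-- **Thresholds for graphs with a dense subgraph**: `q_f ≤ 1920 q`. -/
theorem dense_thresholds {n : ℕ} (hn : 2 ≤ n) (H : SimpleGraph (Fin n))
    (F : Finset (Finset (Slot n))) (hF : ∀ W, W ∈ F ↔ H ⊑ graphOf W)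
    (k : ℕ) (hk1 : 1 ≤ k) (hk : Real.log n ≤ 2 ^ k) (hnlog : 9 * Real.log n ^ 2 ≤ n)
    (A : Finset (Fin n)) (D : Finset (Sym2 (Fin n)))
    (hD : ∀ e ∈ D, e ∈ H.edgeSet ∧ ∀ v ∈ e, v ∈ A)
    (hcard : 2 * k * (A.card + 1) ≤ D.card) :
    fracExpThreshold F ≤ 1920 * expThreshold F := by
  have hbdd : BddAbove {p : ℝ | 0 ≤ p ∧ p ≤ 1 ∧ IsSmall F p} := ⟨1, fun p hp => hp.2.1⟩
  have h0 : 0 ≤ expThreshold F := Real.sSup_nonneg (fun p hp => hp.1)
  have key : ∀ p ∈ {p : ℝ | 0 ≤ p ∧ p ≤ 1 ∧ IsFracSmall F p}, p ≤ 1920 * expThreshold F := by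
    intro p hp
    obtain ⟨hp0, hp1, hfs⟩ := hp
    have h3 := dense_small hn H F hF k hk1 hk hnlog A D hD hcard p hp0 hp1 hfs
    have hmem : p / 1920 ∈ {p : ℝ | 0 ≤ p ∧ p ≤ 1 ∧ IsSmall F p} :=
      ⟨by positivity, (div_le_self hp0 (by norm_num)).trans hp1, h3⟩
    have h4 : p / 1920 ≤ expThreshold F := le_csSup hbdd hmem
    rw [div_le_iff₀ (by norm_num)] at h4
    linarith
  exact Real.sSup_le key (by positivity)

end Vale.Agent.Lib.P034.H3G
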