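import Vale.Agent.Lib.P034.Laminar

/-!
# P034: rounding fractional covers whose support has bounded overlap

If every set `S` of nonzero weight of a fractional cover `g` meets at most `D ^ |S|` sets of
nonzero weight of its own size (itself included), then a cost of at most `1/2` at `p` gives a
cover of cost at most `1/2` at `p / (2^70 * D^2)`. The case `D = 1` is `eqcard_disjoint_small`.

The sets of each size are split greedily into `D ^ s` classes of pairwise disjoint sets and the
core lemma `disjoint_core` is applied to each class.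
-/

namespace Vale.Agent.Lib.P034.H3O

open Finset

/-- Greedy colouring: if every member of `I` conflicts with fewer than `R` other members, then
`I` can be coloured with the colours `0, ..., R - 1` so that conflicting members get different
colours. -/
theorem greedy_colouring {α : Type*} [DecidableEq α] (R : ℕ) (conf : α → α → Prop)
    [DecidableRel conf] (hsymm : ∀ a b, conf a b → conf b a) (I : Finset α)
    (hdeg : ∀ a ∈ I, (I.filter (fun b => b ≠ a ∧ conf a b)).card < R) :
    ∃ c : α → ℕ, (∀ a ∈ I, c a < R) ∧ ∀ a ∈ I, ∀ b ∈ I, a ≠ b → conf a b → c a ≠ c b := by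
  classical
  induction I using Finset.induction_on with
  | empty => exact ⟨fun _ => 0, by simp, by simp⟩
  | insert a I ha ih =>
    have hdeg' : ∀ b ∈ I, (I.filter (fun x => x ≠ b ∧ conf b x)).card < R := by
      intro b hb
      refine lt_of_le_of_lt (Finset.card_le_card ?_) (hdeg b (Finset.mem_insert_of_mem hb))
      intro x hx
      rw [Finset.mem_filter] at hx ⊢
      exact ⟨Finset.mem_insert_of_mem hx.1, hx.2⟩
    obtain ⟨c, hc1, hc2⟩ := ih hdeg'
    set Nb : Finset α := I.filter (fun b => conf a b) with hNb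
    have hNbcard : (Nb.image c).card < (Finset.range R).card := by
      rw [Finset.card_range]
      refine lt_of_le_of_lt Finset.card_image_le ?_
      refine lt_of_le_of_lt (Finset.card_le_card ?_) (hdeg a (Finset.mem_insert_self a I))
      intro x hx
      rw [hNb, Finset.mem_filter] at hx
      rw [Finset.mem_filter]
      refine ⟨Finset.mem_insert_of_mem hx.1, ?_, hx.2⟩
      rintro rfl
      exact ha hx.1
    obtain ⟨k, hkR, hk⟩ := Finset.exists_mem_notMem_of_card_lt_card hNbcard
    refine ⟨Function.update c a k, ?_, ?_⟩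
    · intro x hx
      rcases Finset.mem_insert.mp hx with hxa | hxI
      · rw [hxa, Function.update_self]
        exact Finset.mem_range.mp hkR
      · have hxa : x ≠ a := fun h => ha (h ▸ hxI)
        rw [Function.update_of_ne hxa]
        exact hc1 x hxI
    · intro x hx y hy hxy hconf
      rcases Finset.mem_insert.mp hx with hxa | hxI
      · rcases Finset.mem_insert.mp hy with hya | hyI
        · exact absurd (hxa.trans hya.symm) hxy
        · have hya : y ≠ a := fun h => ha (h ▸ hyI)
          rw [hxa, Function.update_self, Function.update_of_ne hya]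
          intro h
          apply hk
          rw [h]
          exact Finset.mem_image_of_mem c (Finset.mem_filter.mpr ⟨hyI, hxa ▸ hconf⟩)
      · have hxa : x ≠ a := fun h => ha (h ▸ hxI)
        rcases Finset.mem_insert.mp hy with hya | hyI
        · rw [hya, Function.update_self, Function.update_of_ne hxa]
          intro h
          apply hk
          rw [← h]
          exact Finset.mem_image_of_mem c
            (Finset.mem_filter.mpr ⟨hxI, hsymm _ _ (hya ▸ hconf)⟩)
        · have hya : y ≠ a := fun h => ha (h ▸ hyI)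
          rw [Function.update_of_ne hxa, Function.update_of_ne hya]
          exact hc2 x hxI y hyI hxy hconf

/-- Rounding for fractional covers whose support has bounded overlap: if every set `S` of
nonzero weight meets at most `D ^ |S|` sets of nonzero weight of its own size (itself included)
and the cost of `g` at `p` is at most `1/2`, then `F` is `(p / (2^70 * D^2))`-small. -/
theorem overlap_small {X : Type*} [Fintype X] (F : Finset (Finset X)) (g : Finset X → ℝ)
    (p : ℝ) (D : ℕ) (hp : 0 ≤ p) (hD : 1 ≤ D) (hg : IsFracCover g F) (hcost : fracCost g p ≤ 1 / 2)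
    (hov : ∀ S : Finset X, g S ≠ 0 →
      {T : Finset X | g T ≠ 0 ∧ T.card = S.card ∧ ¬ Disjoint S T}.ncard ≤ D ^ S.card) :
    IsSmall F (p / (2 ^ 70 * (D : ℝ) ^ 2)) := by
  classical
  obtain ⟨hg01, hgF⟩ := hg
  have hDpos : (0 : ℝ) < D := by exact_mod_cast hD
  have hD1 : (1 : ℝ) ≤ D := by exact_mod_cast hD
  set N := Fintype.card X with hN
  set I : ℕ → Finset (Finset X) :=
    fun s => univ.filter (fun S => g S ≠ 0 ∧ S.card = s) with hI
  have hterm : ∀ S : Finset X, 0 ≤ g S * p ^ S.card :=
    fun S => mul_nonneg (hg01 S).1 (pow_nonneg hp _)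
  have hclass : ∀ s, ∑ S ∈ I s, g S * p ^ S.card ≤ 1 / 2 := by
    intro s
    refine le_trans ?_ hcost
    unfold fracCost
    exact Finset.sum_le_sum_of_subset_of_nonneg (Finset.subset_univ _) (fun S _ _ => hterm S)
  -- a proper colouring of the sets of each size with `D ^ s` colours
  have hcolex : ∀ s : ℕ, ∃ col : Finset X → ℕ, 1 ≤ s →
      (∀ S ∈ I s, col S < D ^ s) ∧
      ∀ S ∈ I s, ∀ T ∈ I s, S ≠ T → ¬ Disjoint S T → col S ≠ col T := by
    intro s
    by_cases hs : 1 ≤ s
    · have hdeg : ∀ S ∈ I s,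
          ((I s).filter (fun T => T ≠ S ∧ ¬ Disjoint S T)).card < D ^ s := by
        intro S hS
        have hS' := (Finset.mem_filter.mp hS).2
        have hSne : S.Nonempty := by
          rw [← Finset.card_pos]
          omega
        have h1 := hov S hS'.1
        rw [hS'.2] at h1
        have h2 : insert S ((I s).filter (fun T => T ≠ S ∧ ¬ Disjoint S T)) ⊆
            univ.filter (fun T : Finset X => g T ≠ 0 ∧ T.card = s ∧ ¬ Disjoint S T) := by
          intro T hT
          rw [Finset.mem_filter]
          refine ⟨Finset.mem_univ _, ?_⟩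
          rcases Finset.mem_insert.mp hT with hTS | hT
          · rw [hTS]
            exact ⟨hS'.1, hS'.2, fun h => hSne.ne_empty ((Finset.disjoint_self_iff_empty _).mp h)⟩
          · have hT1 := Finset.mem_filter.mp hT
            have hT2 := (Finset.mem_filter.mp hT1.1).2
            exact ⟨hT2.1, hT2.2, hT1.2.2⟩
        have h3 : (univ.filter
            (fun T : Finset X => g T ≠ 0 ∧ T.card = s ∧ ¬ Disjoint S T)).card
            = {T : Finset X | g T ≠ 0 ∧ T.card = s ∧ ¬ Disjoint S T}.ncard := by
          rw [← Set.ncard_coe_finset]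
          congr 1
          ext T
          simp
        have h4 := Finset.card_le_card h2
        rw [Finset.card_insert_of_notMem (by simp), h3] at h4
        omega
      obtain ⟨col, h1, h2⟩ := greedy_colouring (D ^ s) (fun S T : Finset X => ¬ Disjoint S T)
        (fun a b h hba => h (disjoint_comm.mp hba)) (I s) hdeg
      exact ⟨col, fun _ => ⟨h1, h2⟩⟩
    · exact ⟨fun _ => 0, fun h => absurd h hs⟩
  choose col hcol using hcolex
  set Ic : ℕ → ℕ → Finset (Finset X) :=
    fun s c => (I s).filter (fun S => col s S = c) with hIc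
  have key : ∀ s : ℕ, 1 ≤ s → ∀ c : ℕ, ∃ G : Finset (Finset X),
      (∀ H : Finset X, (1 / 2 : ℝ) ^ (s + 1) / (D : ℝ) ^ s ≤
          ∑ S ∈ (Ic s c).filter (· ⊆ H), g S → ∃ T ∈ G, T ⊆ H) ∧
      (∀ T ∈ G, s ≤ T.card) ∧
      ∑ T ∈ G, (p / (2 ^ 69 * (D : ℝ))) ^ T.card ≤ 1 / 3 := by
    intro s hs c
    set w : Finset X → ℝ := fun S => min 1 ((2 * (D : ℝ)) ^ s * g S) with hw
    have hIcI : ∀ S ∈ Ic s c, S ∈ I s := fun S hS => (Finset.mem_filter.mp hS).1
    have hIne : ∀ S ∈ Ic s c, S.Nonempty := by
      intro S hS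
      have h1 := (Finset.mem_filter.mp (hIcI S hS)).2.2
      rw [← Finset.card_pos]
      omega
    have hIdisj : ∀ S ∈ Ic s c, ∀ T ∈ Ic s c, S ≠ T → Disjoint S T := by
      intro S hS T hT hne
      by_contra hnd
      have h1 := (hcol s hs).2 S (hIcI S hS) T (hIcI T hT) hne hnd
      exact h1 (((Finset.mem_filter.mp hS).2).trans ((Finset.mem_filter.mp hT).2).symm)
    have hIw : ∀ S ∈ Ic s c, 0 < w S ∧ w S ≤ 1 := by
      intro S hS
      have hS' := (Finset.mem_filter.mp (hIcI S hS)).2
      have hpos : 0 < g S := lt_of_le_of_ne (hg01 S).1 (Ne.symm hS'.1)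
      exact ⟨lt_min one_pos (by positivity), min_le_left _ _⟩
    have h2D : (0 : ℝ) < 2 * D := by positivity
    have hIcost : ∑ S ∈ Ic s c, w S * (p / (2 * D)) ^ S.card ≤ 1 / 2 := by
      refine le_trans ?_ (hclass s)
      refine le_trans ?_ (Finset.sum_le_sum_of_subset_of_nonneg (fun S hS => hIcI S hS)
        (fun S _ _ => hterm S))
      apply Finset.sum_le_sum
      intro S hS
      have hS' := (Finset.mem_filter.mp (hIcI S hS)).2
      rw [hS'.2]
      have h1 : w S ≤ (2 * (D : ℝ)) ^ s * g S := min_le_right _ _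
      have h2 : (p / (2 * D)) ^ s = p ^ s / (2 * (D : ℝ)) ^ s := div_pow p _ s
      calc w S * (p / (2 * D)) ^ s ≤ ((2 * (D : ℝ)) ^ s * g S) * (p / (2 * D)) ^ s :=
            mul_le_mul_of_nonneg_right h1 (by positivity)
        _ = g S * p ^ s := by
            rw [h2]
            field_simp
    obtain ⟨G, hGcov, hGsub, hGcost⟩ :=
      disjoint_core (Ic s c) w (p / (2 * D)) (by positivity) hIne hIdisj hIw hIcost
    refine ⟨G, ?_, ?_, ?_⟩
    · intro H hH
      apply hGcov
      by_cases hbig : ∃ S ∈ (Ic s c).filter (· ⊆ H), 1 ≤ (2 * (D : ℝ)) ^ s * g S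
      · obtain ⟨S, hS, hS1⟩ := hbig
        have h1 : w S = 1 := min_eq_left hS1
        calc (1 / 2 : ℝ) ≤ 1 := by norm_num
          _ = w S := h1.symm
          _ ≤ ∑ S ∈ (Ic s c).filter (· ⊆ H), w S :=
            Finset.single_le_sum (f := w)
              (fun T hT => (hIw T (Finset.mem_filter.mp hT).1).1.le) hS
      · have hw_eq : ∀ S ∈ (Ic s c).filter (· ⊆ H), w S = (2 * (D : ℝ)) ^ s * g S := by
          intro S hS
          apply min_eq_right
          by_contra hcon
          exact hbig ⟨S, hS, (not_le.mp hcon).le⟩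
        rw [Finset.sum_congr rfl hw_eq, ← Finset.mul_sum]
        have h3 : (1 / 2 : ℝ) =
            (2 * (D : ℝ)) ^ s * ((1 / 2 : ℝ) ^ (s + 1) / (D : ℝ) ^ s) := by
          rw [mul_pow, pow_succ, one_div, inv_pow]
          field_simp
        rw [h3]
        exact mul_le_mul_of_nonneg_left hH (by positivity)
    · intro T hT
      obtain ⟨S, hS, hST⟩ := hGsub T hT
      have h1 := (Finset.mem_filter.mp (hIcI S hS)).2.2
      rw [← h1]
      exact Finset.card_le_card hST
    · have h1 : p / (2 * D) / 2 ^ 68 = p / (2 ^ 69 * (D : ℝ)) := by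
        rw [div_div]
        congr 1
        ring
      rw [← h1]
      exact hGcost
  choose! Gs hGs using key
  refine ⟨(Finset.range N).biUnion
    (fun k => (Finset.range (D ^ (k + 1))).biUnion (fun c => Gs (k + 1) c)), ?_, ?_⟩
  · -- covering
    intro H hH
    have h1 := hgF H hH
    have hempty : g ∅ ≤ 1 / 2 := by
      refine le_trans ?_ hcost
      unfold fracCost
      have h2 := Finset.single_le_sum (f := fun S : Finset X => g S * p ^ S.card)
        (fun S _ => hterm S) (Finset.mem_univ (∅ : Finset X))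
      simpa using h2
    have h2 : ∑ S ∈ H.powerset, g S =
        ∑ k ∈ Finset.range N, ∑ S ∈ (I (k + 1)).filter (· ⊆ H), g S + g ∅ := by
      have hmaps : ∀ S ∈ H.powerset, S.card ∈ Finset.range (N + 1) := by
        intro S _
        exact Finset.mem_range.mpr (Nat.lt_succ_of_le (Finset.card_le_univ S))
      rw [← Finset.sum_fiberwise_of_maps_to hmaps, Finset.sum_range_succ']
      congr 1
      · refine Finset.sum_congr rfl fun k _ => ?_
        have h3 : (I (k + 1)).filter (· ⊆ H) =
            (H.powerset.filter (fun S => S.card = k + 1)).filter (fun S => g S ≠ 0) := by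
          ext S
          simp only [hI, Finset.mem_filter, Finset.mem_univ, true_and, Finset.mem_powerset]
          tauto
        rw [h3, Finset.sum_filter_ne_zero]
      · have h3 : H.powerset.filter (fun S => S.card = 0) = {∅} := by
          ext S
          simp only [Finset.mem_filter, Finset.mem_powerset, Finset.card_eq_zero,
            Finset.mem_singleton]
          constructor
          · exact fun h => h.2
          · intro h
            rw [h]
            exact ⟨Finset.empty_subset _, rfl⟩
        rw [h3, Finset.sum_singleton]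
    have h2' : ∀ k : ℕ, ∑ S ∈ (I (k + 1)).filter (· ⊆ H), g S =
        ∑ c ∈ Finset.range (D ^ (k + 1)), ∑ S ∈ (Ic (k + 1) c).filter (· ⊆ H), g S := by
      intro k
      rw [← Finset.sum_fiberwise_of_maps_to (g := col (k + 1))
        (t := Finset.range (D ^ (k + 1)))
        (fun S hS => Finset.mem_range.mpr
          ((hcol (k + 1) (Nat.le_add_left 1 k)).1 S (Finset.mem_filter.mp hS).1))]
      refine Finset.sum_congr rfl fun c _ => ?_
      congr 1
      ext S
      simp only [hIc, Finset.mem_filter]
      tauto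
    by_contra hcon
    have h3 : ∀ k ∈ Finset.range N,
        ∑ S ∈ (I (k + 1)).filter (· ⊆ H), g S ≤ (1 / 2 : ℝ) ^ (k + 2) := by
      intro k hk
      rw [h2' k]
      have h4 : ∀ c ∈ Finset.range (D ^ (k + 1)),
          ∑ S ∈ (Ic (k + 1) c).filter (· ⊆ H), g S ≤
            (1 / 2 : ℝ) ^ (k + 2) / (D : ℝ) ^ (k + 1) := by
        intro c hc
        by_contra hge
        obtain ⟨T, hT, hTH⟩ :=
          (hGs (k + 1) (Nat.le_add_left 1 k) c).1 H (not_le.mp hge).le
        exact hcon ⟨T, Finset.mem_biUnion.mpr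
          ⟨k, hk, Finset.mem_biUnion.mpr ⟨c, hc, hT⟩⟩, hTH⟩
      refine le_trans (Finset.sum_le_sum h4) (le_of_eq ?_)
      rw [Finset.sum_const, Finset.card_range, nsmul_eq_mul, Nat.cast_pow]
      have hDk : (D : ℝ) ^ (k + 1) ≠ 0 := by positivity
      field_simp
    have h4 := Finset.sum_le_sum h3
    rw [sum_half_pow_add_two] at h4
    have h5 : (0 : ℝ) < (1 / 2 : ℝ) ^ (N + 1) := by positivity
    linarith
  · -- cost
    have hq0 : 0 ≤ p / (2 ^ 70 * (D : ℝ) ^ 2) := by positivity
    have h69 : (0 : ℝ) ≤ p / (2 ^ 69 * (D : ℝ)) :=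
      div_nonneg hp (mul_nonneg (pow_nonneg (by norm_num) _) hDpos.le)
    have hle1 : 1 / (2 * (D : ℝ)) ≤ 1 := by
      rw [div_le_one (by positivity)]
      linarith
    have h1 : ∀ k ∈ Finset.range N, ∀ c ∈ Finset.range (D ^ (k + 1)),
        ∑ T ∈ Gs (k + 1) c, (p / (2 ^ 70 * (D : ℝ) ^ 2)) ^ T.card ≤
          (1 / (2 * (D : ℝ))) ^ (k + 1) * (1 / 3) := by
      intro k _ c _
      obtain ⟨_, hsz, hc⟩ := hGs (k + 1) (Nat.le_add_left 1 k) c
      calc ∑ T ∈ Gs (k + 1) c, (p / (2 ^ 70 * (D : ℝ) ^ 2)) ^ T.card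
          ≤ ∑ T ∈ Gs (k + 1) c,
              (1 / (2 * (D : ℝ))) ^ (k + 1) * (p / (2 ^ 69 * (D : ℝ))) ^ T.card := by
            apply Finset.sum_le_sum
            intro T hT
            have h2 : p / (2 ^ 70 * (D : ℝ) ^ 2) =
                (1 / (2 * (D : ℝ))) * (p / (2 ^ 69 * (D : ℝ))) := by
              rw [div_mul_div_comm, one_mul]
              congr 1
              ring
            rw [h2, mul_pow]
            apply mul_le_mul_of_nonneg_right _ (pow_nonneg h69 _)
            exact pow_le_pow_of_le_one (by positivity) hle1 (hsz T hT)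
        _ = (1 / (2 * (D : ℝ))) ^ (k + 1) *
              ∑ T ∈ Gs (k + 1) c, (p / (2 ^ 69 * (D : ℝ))) ^ T.card := by
            rw [Finset.mul_sum]
        _ ≤ (1 / (2 * (D : ℝ))) ^ (k + 1) * (1 / 3) :=
            mul_le_mul_of_nonneg_left hc (by positivity)
    have h1' : ∀ k ∈ Finset.range N,
        ∑ c ∈ Finset.range (D ^ (k + 1)),
          ∑ T ∈ Gs (k + 1) c, (p / (2 ^ 70 * (D : ℝ) ^ 2)) ^ T.card
          ≤ (1 / 2 : ℝ) ^ (k + 1) * (1 / 3) := by
      intro k hk
      refine le_trans (Finset.sum_le_sum (h1 k hk)) (le_of_eq ?_)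
      rw [Finset.sum_const, Finset.card_range, nsmul_eq_mul, Nat.cast_pow]
      simp only [one_div, inv_pow, mul_pow]
      field_simp
    unfold cost
    calc ∑ T ∈ (Finset.range N).biUnion
            (fun k => (Finset.range (D ^ (k + 1))).biUnion (fun c => Gs (k + 1) c)),
          (p / (2 ^ 70 * (D : ℝ) ^ 2)) ^ T.card
        ≤ ∑ k ∈ Finset.range N,
            ∑ T ∈ (Finset.range (D ^ (k + 1))).biUnion (fun c => Gs (k + 1) c),
              (p / (2 ^ 70 * (D : ℝ) ^ 2)) ^ T.card :=
          sum_biUnion_le_of_nonneg _ _ _ (fun T => pow_nonneg hq0 _)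
      _ ≤ ∑ k ∈ Finset.range N, ∑ c ∈ Finset.range (D ^ (k + 1)),
            ∑ T ∈ Gs (k + 1) c, (p / (2 ^ 70 * (D : ℝ) ^ 2)) ^ T.card :=
          Finset.sum_le_sum
            (fun k _ => sum_biUnion_le_of_nonneg _ _ _ (fun T => pow_nonneg hq0 _))
      _ ≤ ∑ k ∈ Finset.range N, (1 / 2 : ℝ) ^ (k + 1) * (1 / 3) := Finset.sum_le_sum h1'
      _ = (1 - (1 / 2 : ℝ) ^ N) * (1 / 3) := by
          rw [← Finset.sum_mul, sum_half_pow_add_one]
      _ ≤ 1 / 2 := by
          have h2 : (0 : ℝ) ≤ (1 / 2 : ℝ) ^ N := by positivity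
          nlinarith

theorem one_add_mul_le_succ_pow (a s : ℕ) : 1 + s * a ≤ (a + 1) ^ s := by
  induction s with
  | zero => simp
  | succ s ih =>
    calc 1 + (s + 1) * a ≤ (1 + s * a) * (a + 1) := by
          nlinarith [Nat.zero_le (s * a * a)]
      _ ≤ (a + 1) ^ s * (a + 1) := Nat.mul_le_mul_right _ ih
      _ = (a + 1) ^ (s + 1) := (pow_succ _ _).symm

/-- Rounding for fractional covers whose support has bounded degree: if every element of the
ground set lies in at most `d` sets of nonzero weight of each size and the cost of `g` at `p`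
is at most `1/2`, then `F` is `(p / (2^70 * d^2))`-small. -/
theorem degree_small {X : Type*} [Fintype X] (F : Finset (Finset X)) (g : Finset X → ℝ)
    (p : ℝ) (d : ℕ) (hp : 0 ≤ p) (hd : 1 ≤ d) (hg : IsFracCover g F)
    (hcost : fracCost g p ≤ 1 / 2)
    (hdeg : ∀ (s : ℕ) (x : X), {T : Finset X | g T ≠ 0 ∧ T.card = s ∧ x ∈ T}.ncard ≤ d) :
    IsSmall F (p / (2 ^ 70 * (d : ℝ) ^ 2)) := by
  classical
  apply overlap_small F g p d hp hd hg hcost
  intro S hS
  set s := S.card with hs
  set A : X → Finset (Finset X) :=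
    fun x => univ.filter (fun T : Finset X => g T ≠ 0 ∧ T.card = s ∧ x ∈ T) with hA
  have hAcard : ∀ x, (A x).card ≤ d := by
    intro x
    have h1 := hdeg s x
    have h2 : (A x).card = {T : Finset X | g T ≠ 0 ∧ T.card = s ∧ x ∈ T}.ncard := by
      rw [← Set.ncard_coe_finset]
      congr 1
      ext T
      simp [hA]
    omega
  set B : Finset (Finset X) :=
    univ.filter (fun T : Finset X => g T ≠ 0 ∧ T.card = s ∧ ¬ Disjoint S T) with hB
  have hBn : {T : Finset X | g T ≠ 0 ∧ T.card = s ∧ ¬ Disjoint S T}.ncard = B.card := by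
    rw [← Set.ncard_coe_finset]
    congr 1
    ext T
    simp [hB]
  rw [hBn]
  have hsub : B ⊆ insert S (S.biUnion (fun x => (A x).erase S)) := by
    intro T hT
    have hT' := (Finset.mem_filter.mp hT).2
    by_cases hTS : T = S
    · rw [hTS]
      exact Finset.mem_insert_self _ _
    · obtain ⟨x, hxS, hxT⟩ := Finset.not_disjoint_iff.mp hT'.2.2
      refine Finset.mem_insert_of_mem (Finset.mem_biUnion.mpr ⟨x, hxS, ?_⟩)
      exact Finset.mem_erase.mpr ⟨hTS, Finset.mem_filter.mpr
        ⟨Finset.mem_univ _, hT'.1, hT'.2.1, hxT⟩⟩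
  have h1 : ∀ x ∈ S, ((A x).erase S).card ≤ d - 1 := by
    intro x hx
    have hSA : S ∈ A x := Finset.mem_filter.mpr ⟨Finset.mem_univ _, hS, rfl, hx⟩
    rw [Finset.card_erase_of_mem hSA]
    exact Nat.sub_le_sub_right (hAcard x) 1
  have h2 : B.card ≤ 1 + s * (d - 1) := by
    calc B.card ≤ (insert S (S.biUnion (fun x => (A x).erase S))).card :=
          Finset.card_le_card hsub
      _ ≤ (S.biUnion (fun x => (A x).erase S)).card + 1 := Finset.card_insert_le _ _
      _ ≤ ∑ x ∈ S, ((A x).erase S).card + 1 := Nat.add_le_add_right Finset.card_biUnion_le 1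
      _ ≤ ∑ _x ∈ S, (d - 1) + 1 := Nat.add_le_add_right (Finset.sum_le_sum h1) 1
      _ = 1 + s * (d - 1) := by
          rw [Finset.sum_const, smul_eq_mul, add_comm]
  have h3 := one_add_mul_le_succ_pow (d - 1) s
  have h4 : d - 1 + 1 = d := Nat.sub_add_cancel hd
  rw [h4] at h3
  exact le_trans h2 h3

end Vale.Agent.Lib.P034.H3O
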