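import Vale.Agent.Lib.P034.helper3.Overlap

/-!
# P034: the case `D = 1` of `overlap_small` is the equal-size-disjoint statement

A check that the statement of the former hand-in `EqualSizeDisjoint` (`eqcard_disjoint_small`
in `Laminar.lean`) follows from `overlap_small` with `D = 1`, with the same constant `2^70`.
Used by no hand-in.
-/

namespace Vale.Agent.Lib.P034.H3O

/-- The equal-size-disjoint rounding statement, derived from `overlap_small` with `D = 1`. -/
theorem eqcard_disjoint_of_overlap (X : Type) [Fintype X] (F : Finset (Finset X))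
    (g : Finset X → ℝ) (p : ℝ) (hp : 0 ≤ p) (hg : IsFracCover g F)
    (hc : fracCost g p ≤ 1 / 2)
    (hd : ∀ S T : Finset X, g S ≠ 0 → g T ≠ 0 → S.card = T.card → S ≠ T → Disjoint S T) :
    IsSmall F (p / 2 ^ 70) := by
  have h := overlap_small F g p 1 hp le_rfl hg hc ?_
  · simpa using h
  · intro S hS
    rw [one_pow]
    refine le_trans (Set.ncard_le_ncard (t := {S}) ?_ (Set.finite_singleton S)) (by simp)
    intro T hT
    by_contra hne
    exact hT.2.2 (hd S T hS hT.1 hT.2.1.symm (fun h => hne (by simp [h])))

end Vale.Agent.Lib.P034.H3O
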