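import Vale.Agent.Lib.P034.helper3.Contain
import Vale.Agent.KK.RG.Main

/-!
# P034: fractional versus integral expectation thresholds for containment of an arbitrary graph

For every graph `H` on `n` labelled vertices, a fractional cover of cost at most `1/2` at `p` of
the family of the graphs on `[n]` containing a copy of `H` gives a cover of cost at most `1/2` at
`p / (10 ^ 123 * exp (118 * n * p))`. Hence `q_f ≤ 10 ^ 123 * exp (118 * n * q_f) * q`: a
comparison with a constant factor in the range where the fractional threshold is of order `1/n`.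
-/

namespace Vale.Agent.Lib.P034.H3R

open Finset SimpleGraph
open Vale.Agent.KK Vale.Agent.KK.PP Vale.Agent.Lib.P064 Vale.Agent.Lib.P034.H3C

/-- If the labelled copy-count inequality holds with base `min 1 p`, the family of the graphs
containing `H` has no fractional cover of cost at most `1/2` at `p`. -/
theorem not_fracSmall_of_hlab {n : ℕ} (H : SimpleGraph (Fin n))
    (F : Finset (Finset (Slot n))) (hF : ∀ W, W ∈ F ↔ H ⊑ graphOf W) (p : ℝ) (hp : 0 ≤ p)
    (hlab : ∀ F' : SimpleGraph (Fin n),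
      (H.labelledCopyCount F' : ℝ) ≤ (n.factorial : ℝ) * (min 1 p) ^ F'.edgeSet.ncard) :
    ¬ IsFracSmall F p := by
  classical
  rintro ⟨g, ⟨hg01, hgcov⟩, hcost⟩
  have hp₀ : 0 ≤ min 1 p := le_min zero_le_one hp
  have hmem : ∀ σ : Equiv.Perm (Fin n), copyEdges H σ ∈ F := by
    intro σ
    rw [hF, ← hits_copyFamily_iff]
    refine ⟨copyEdges H σ, ?_, Finset.Subset.refl _⟩
    unfold copyFamily
    exact mem_image_of_mem _ (mem_univ σ)
  have h1 := frac_cover_ge H _ hlab g (fun T => (hg01 T).1) (fun σ => hgcov _ (hmem σ))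
  have h2 : ∑ T : Finset (Slot n), g T * (min 1 p) ^ T.card ≤ fracCost g p := by
    unfold fracCost
    apply Finset.sum_le_sum
    intro T _
    apply mul_le_mul_of_nonneg_left _ (hg01 T).1
    exact pow_le_pow_left₀ hp₀ (min_le_right _ _) _
  linarith

/-- Smallness is monotone: a cover is cheaper at a smaller density. -/
theorem isSmall_mono {X : Type*} [DecidableEq X] [Fintype X] (F : Finset (Finset X))
    {p p' : ℝ} (hp' : 0 ≤ p') (hpp : p' ≤ p) (h : IsSmall F p) : IsSmall F p' := by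
  obtain ⟨G, hG, hc⟩ := h
  refine ⟨G, hG, le_trans ?_ hc⟩
  unfold cost
  exact Finset.sum_le_sum (fun S _ => pow_le_pow_left₀ hp' hpp _)

/-- Rounding in the range `p ≤ 2 K / n`, with a constant depending only on `K`. -/
theorem regime_small_aux (K : ℝ) (hK : 1 ≤ K) :
    ∃ L : ℝ, 1 ≤ L ∧ L ≤ 10 ^ 19 * Real.exp (236 * K) ∧
      ∀ (n : ℕ) (H : SimpleGraph (Fin n)), 2 ≤ n →
      ∀ F : Finset (Finset (Slot n)), (∀ W, W ∈ F ↔ H ⊑ graphOf W) →
      ∀ p : ℝ, 0 ≤ p → p ≤ 2 * K / n → IsFracSmall F p → IsSmall F (p / (2 * L)) := by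
  classical
  obtain ⟨L, hL1, hLb, hreg⟩ := Vale.Agent.KK.RG.regime_hlab K hK
  refine ⟨L, hL1, hLb, ?_⟩
  intro n H hn F hF p hp hpK hfs
  set q : ℝ := p / (2 * L) with hq
  have hL0 : 0 < L := by linarith
  have hq0 : 0 ≤ q := by positivity
  have hqp : q ≤ p := by
    rw [hq]
    exact div_le_self hp (by linarith)
  by_cases hyp : ∀ H' : H.Subgraph, (1 : ℝ) / 2 ≤
      ((⊤ : SimpleGraph (Fin n)).copyCount H'.coe : ℝ) * q ^ H'.edgeSet.ncard
  · exfalso
    have hlab := hreg n H q hn hq0 (hqp.trans hpK) hyp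
    have e : L * (2 * q) = p := by
      rw [hq]
      field_simp
    rw [e] at hlab
    exact not_fracSmall_of_hlab H F hF p hp hlab hfs
  · push Not at hyp
    obtain ⟨H', hH'⟩ := hyp
    obtain ⟨G, hGcov, hGcost⟩ := sub_cover H H' q hq0
    refine ⟨G, fun W hW => hGcov W ((hF W).1 hW), ?_⟩
    unfold cost
    linarith

theorem exp_236_le : Real.exp 236 ≤ 10 ^ 103 := by
  have h1 : Real.exp 1 ≤ 2.72 := by
    have := Real.exp_one_lt_d9
    linarith
  have h2 : Real.exp 236 = Real.exp 1 ^ 236 := by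
    rw [← Real.exp_nat_mul]
    norm_num
  rw [h2]
  calc Real.exp 1 ^ 236 ≤ (2.72 : ℝ) ^ 236 := pow_le_pow_left₀ (Real.exp_pos 1).le h1 _
    _ ≤ 10 ^ 103 := by norm_num

/-- **Rounding for containment of an arbitrary graph.** -/
theorem allgraphs_small {n : ℕ} (hn : 2 ≤ n) (H : SimpleGraph (Fin n))
    (F : Finset (Finset (Slot n))) (hF : ∀ W, W ∈ F ↔ H ⊑ graphOf W)
    (p : ℝ) (hp : 0 ≤ p) (hfs : IsFracSmall F p) :
    IsSmall F (p / (10 ^ 123 * Real.exp (118 * n * p))) := by
  have hn0 : (0 : ℝ) < n := by exact_mod_cast (by omega : 0 < n)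
  have hx0 : 0 ≤ (n : ℝ) * p / 2 := by positivity
  set K : ℝ := max 1 (n * p / 2) with hKdef
  have hK1 : 1 ≤ K := le_max_left _ _
  have hKx : (n : ℝ) * p / 2 ≤ K := le_max_right _ _
  have hKle : K ≤ 1 + (n : ℝ) * p / 2 := max_le (by linarith) (by linarith)
  obtain ⟨L, hL1, hLb, h⟩ := regime_small_aux K hK1
  have hpK : p ≤ 2 * K / n := by
    rw [le_div_iff₀ hn0]
    linarith
  have h1 := h n H hn F hF p hp hpK hfs
  have hE : Real.exp (236 * K) ≤ 10 ^ 103 * Real.exp (118 * n * p) := by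
    have h2 : Real.exp (236 * K) ≤ Real.exp (236 + 118 * n * p) :=
      Real.exp_le_exp.2 (by linarith)
    rw [Real.exp_add] at h2
    have h3 : Real.exp 236 * Real.exp (118 * n * p) ≤ 10 ^ 103 * Real.exp (118 * n * p) :=
      mul_le_mul_of_nonneg_right exp_236_le (Real.exp_pos _).le
    linarith
  have hEpos : 0 < Real.exp (118 * n * p) := Real.exp_pos _
  have hLle : 2 * L ≤ 10 ^ 123 * Real.exp (118 * n * p) := by
    have : L ≤ 10 ^ 19 * (10 ^ 103 * Real.exp (118 * n * p)) :=
      hLb.trans (mul_le_mul_of_nonneg_left hE (by norm_num))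
    nlinarith
  have hL0 : 0 < 2 * L := by linarith
  apply isSmall_mono F _ _ h1
  · positivity
  · exact div_le_div_of_nonneg_left hp hL0 hLle

/-- **Thresholds for containment of an arbitrary graph.** -/
theorem allgraphs_thresholds {n : ℕ} (hn : 2 ≤ n) (H : SimpleGraph (Fin n))
    (F : Finset (Finset (Slot n))) (hF : ∀ W, W ∈ F ↔ H ⊑ graphOf W) :
    fracExpThreshold F ≤
      10 ^ 123 * Real.exp (118 * n * fracExpThreshold F) * expThreshold F := by
  have hbdd : BddAbove {p : ℝ | 0 ≤ p ∧ p ≤ 1 ∧ IsSmall F p} := ⟨1, fun p hp => hp.2.1⟩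
  have hbddf : BddAbove {p : ℝ | 0 ≤ p ∧ p ≤ 1 ∧ IsFracSmall F p} := ⟨1, fun p hp => hp.2.1⟩
  have h0 : 0 ≤ expThreshold F := Real.sSup_nonneg (fun p hp => hp.1)
  have hn0 : (0 : ℝ) ≤ n := Nat.cast_nonneg n
  have key : ∀ p ∈ {p : ℝ | 0 ≤ p ∧ p ≤ 1 ∧ IsFracSmall F p},
      p ≤ 10 ^ 123 * Real.exp (118 * n * fracExpThreshold F) * expThreshold F := by
    intro p hp
    have hp0 : 0 ≤ p := hp.1
    have h1 := allgraphs_small hn H F hF p hp0 hp.2.2
    have hE1 : 1 ≤ Real.exp (118 * n * p) := Real.one_le_exp (by positivity)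
    have hC1 : (1 : ℝ) ≤ 10 ^ 123 * Real.exp (118 * n * p) := by nlinarith
    have hC0 : (0 : ℝ) < 10 ^ 123 * Real.exp (118 * n * p) := by linarith
    have hmem : p / (10 ^ 123 * Real.exp (118 * n * p)) ∈
        {p : ℝ | 0 ≤ p ∧ p ≤ 1 ∧ IsSmall F p} := by
      refine ⟨by positivity, ?_, h1⟩
      exact (div_le_self hp0 hC1).trans hp.2.1
    have h2 : p / (10 ^ 123 * Real.exp (118 * n * p)) ≤ expThreshold F := le_csSup hbdd hmem
    have hple : p ≤ fracExpThreshold F := le_csSup hbddf hp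
    have h3 : p ≤ 10 ^ 123 * Real.exp (118 * n * p) * expThreshold F := by
      rw [div_le_iff₀ hC0] at h2
      linarith
    have h4 : Real.exp (118 * n * p) ≤ Real.exp (118 * n * fracExpThreshold F) :=
      Real.exp_le_exp.2 (by nlinarith)
    have h5 : 10 ^ 123 * Real.exp (118 * n * p) * expThreshold F ≤
        10 ^ 123 * Real.exp (118 * n * fracExpThreshold F) * expThreshold F := by
      apply mul_le_mul_of_nonneg_right _ h0
      exact mul_le_mul_of_nonneg_left h4 (by norm_num)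
    linarith
  have hrhs : 0 ≤ 10 ^ 123 * Real.exp (118 * n * fracExpThreshold F) * expThreshold F := by
    have := Real.exp_pos (118 * n * fracExpThreshold F)
    positivity
  exact Real.sSup_le key hrhs

/-- A graph with an edge has at least two vertices. -/
theorem two_le_of_ne_bot {n : ℕ} (H : SimpleGraph (Fin n)) (hne : H ≠ ⊥) : 2 ≤ n := by
  by_contra hlt
  apply hne
  ext u v
  simp only [bot_adj, iff_false]
  intro huv
  have hne' : u ≠ v := huv.ne
  apply hne'
  apply Fin.ext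
  have := u.isLt
  have := v.isLt
  omega

end Vale.Agent.Lib.P034.H3R
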